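import Mathlib

/-!
# Cut ideals of arrangements of difference forms, and the removal lemma

`S = k[x_a : a ∈ V]`.  An edge `(a, b, m)` has the form `x_a - x_b + m`.  For a multiset `L` of
edges and a subset `U` of `V`, `Y L U` is the product of the forms of the edges joining `U` and its
complement, `cutI L` is the ideal generated by all `Y L U`, `∅ ≠ U ≠ V`.

Main result `removal`: `form e * g ∈ cutI (e ::ₘ L) → g ∈ cutI L`.
-/

open MvPolynomial

open scoped Classical

namespace Vale.Agent.P291.H882

noncomputable section

/-- An edge, with the form `X a - X b + C m`. -/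
abbrev Edge (k V : Type*) := V × V × k

section defs

variable {k : Type*} [CommRing k] {V : Type*}

/-- the linear form of an edge -/
def form (e : Edge k V) : MvPolynomial V k := X e.1 - X e.2.1 + C e.2.2

/-- the edge joins `U` and its complement -/
def cuts (U : Set V) (e : Edge k V) : Prop := ¬ (e.1 ∈ U ↔ e.2.1 ∈ U)

/-- product of the forms of the cut edges -/
def Y (L : Multiset (Edge k V)) (U : Set V) : MvPolynomial V k :=
  ((L.filter (cuts U)).map form).prod

/-- the cut ideal -/
def cutI (L : Multiset (Edge k V)) : Ideal (MvPolynomial V k) :=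
  Ideal.span {z | ∃ U : Set V, U.Nonempty ∧ Uᶜ.Nonempty ∧ z = Y L U}

theorem Y_mem {L : Multiset (Edge k V)} {U : Set V} (h : U.Nonempty) (h' : Uᶜ.Nonempty) :
    Y L U ∈ cutI L := Ideal.subset_span ⟨U, h, h', rfl⟩

theorem Y_add (L M : Multiset (Edge k V)) (U : Set V) : Y (L + M) U = Y L U * Y M U := by
  simp [Y, Multiset.filter_add]

theorem Y_cons (e : Edge k V) (L : Multiset (Edge k V)) (U : Set V) :
    Y (e ::ₘ L) U = (if cuts U e then form e else 1) * Y L U := by
  unfold Y
  by_cases h : cuts U e <;> simp [h]

theorem Y_zero (U : Set V) : Y (0 : Multiset (Edge k V)) U = 1 := by simp [Y]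

end defs

section shift

variable {k : Type*} [CommRing k] {V : Type*}

/-- Substitution `x_a ↦ x_a + t` for `a ∈ U`. -/
def shift (U : Set V) : MvPolynomial V k →ₐ[k] Polynomial (MvPolynomial V k) :=
  MvPolynomial.aeval (fun a => Polynomial.C (X a) + if a ∈ U then Polynomial.X else 0)

theorem eval_shift (U : Set V) (g : MvPolynomial V k) : (shift U g).eval 0 = g := by
  have h : ((Polynomial.evalRingHom (0 : MvPolynomial V k)).comp
      (shift U).toRingHom) = RingHom.id _ := by
    apply MvPolynomial.ringHom_ext
    · intro r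
      simp [shift, MvPolynomial.algebraMap_eq, Polynomial.algebraMap_apply]
    · intro a
      by_cases ha : a ∈ U <;> simp [shift, ha]
  exact congrArg (fun f => f g) h

theorem shift_C (U : Set V) (m : k) : shift U (C m : MvPolynomial V k) = Polynomial.C (C m) := by
  simp [shift, MvPolynomial.algebraMap_eq, Polynomial.algebraMap_apply]

theorem shift_X (U : Set V) (a : V) : shift U (X a : MvPolynomial V k) =
    Polynomial.C (X a) + if a ∈ U then Polynomial.X else 0 := by
  simp [shift]

/-- signed form -/
def sform (U : Set V) (e : Edge k V) : MvPolynomial V k :=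
  if e.1 ∈ U then form e else - form e

/-- signed cut product, its shift is monic -/
def Ys (L : Multiset (Edge k V)) (U : Set V) : MvPolynomial V k :=
  ((L.filter (cuts U)).map (sform U)).prod

theorem shift_form_of_not_cuts {U : Set V} {e : Edge k V} (h : ¬ cuts U e) :
    shift U (form e) = Polynomial.C (form e) := by
  have h' : e.1 ∈ U ↔ e.2.1 ∈ U := not_not.1 h
  unfold form
  rw [map_add, map_sub, shift_C, shift_X, shift_X]
  by_cases h1 : e.1 ∈ U
  · simp [h1, h'.1 h1]
  · have h2 : e.2.1 ∉ U := fun h3 => h1 (h'.2 h3)
    simp [h1, h2]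

theorem shift_sform_of_cuts {U : Set V} {e : Edge k V} (h : cuts U e) :
    shift U (sform U e) = Polynomial.X + Polynomial.C (sform U e) := by
  unfold cuts at h
  unfold sform form
  by_cases h1 : e.1 ∈ U
  · have h2 : e.2.1 ∉ U := by tauto
    rw [if_pos h1, map_add, map_sub, shift_C, shift_X, shift_X]; simp [h1, h2]; ring
  · have h2 : e.2.1 ∈ U := by tauto
    rw [if_neg h1, map_neg, map_add, map_sub, shift_C, shift_X, shift_X]; simp [h1, h2]; ring

theorem monic_shift_Ys (L : Multiset (Edge k V)) (U : Set V) : (shift U (Ys L U)).Monic := by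
  unfold Ys
  rw [map_multiset_prod, Multiset.map_map]
  have h : ∀ e ∈ L.filter (cuts U), cuts U e := fun e he => (Multiset.mem_filter.1 he).2
  revert h
  induction L.filter (cuts U) using Multiset.induction_on with
  | empty => intro _; simp
  | cons e M ih =>
    intro h
    rw [Multiset.map_cons, Multiset.prod_cons]
    refine Polynomial.Monic.mul ?_ (ih fun e' he' => h e' (Multiset.mem_cons_of_mem he'))
    simp only [Function.comp]
    rw [shift_sform_of_cuts (h e (Multiset.mem_cons_self e M))]
    exact Polynomial.monic_X_add_C _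

/-- `Ys L U = ± Y L U`. -/
theorem Ys_eq (L : Multiset (Edge k V)) (U : Set V) :
    ∃ s : MvPolynomial V k, s * s = 1 ∧ Ys L U = s * Y L U := by
  unfold Ys Y
  induction L.filter (cuts U) using Multiset.induction_on with
  | empty => exact ⟨1, by simp⟩
  | cons e M ih =>
    obtain ⟨s, hs, h⟩ := ih
    by_cases h1 : e.1 ∈ U
    · refine ⟨s, hs, ?_⟩
      rw [Multiset.map_cons, Multiset.prod_cons, h, Multiset.map_cons, Multiset.prod_cons, sform,
        if_pos h1]; ring
    · refine ⟨-s, by linear_combination hs, ?_⟩
      rw [Multiset.map_cons, Multiset.prod_cons, h, Multiset.map_cons, Multiset.prod_cons, sform,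
        if_neg h1]; ring

/-- quotient operator -/
def q (L : Multiset (Edge k V)) (U : Set V) (g : MvPolynomial V k) : MvPolynomial V k :=
  ((shift U g) /ₘ (shift U (Ys L U))).eval 0

/-- the projection onto the multiples of the cut product -/
def proj (L : Multiset (Edge k V)) (U : Set V) (g : MvPolynomial V k) : MvPolynomial V k :=
  Ys L U * q L U g

end shift

/-- uniqueness of division, quotient part -/
theorem divByMonic_unique' {R : Type*} [CommRing R] {M f a r : Polynomial R} (hM : M.Monic)
    (h : r + M * a = f) (hr : r.degree < M.degree) : f /ₘ M = a :=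
  (Polynomial.div_modByMonic_unique a r hM ⟨h, hr⟩).1

theorem add_div {R : Type*} [CommRing R] {M : Polynomial R} (hM : M.Monic) (f g : Polynomial R) :
    (f + g) /ₘ M = f /ₘ M + g /ₘ M := by
  nontriviality R
  refine divByMonic_unique' hM (r := f %ₘ M + g %ₘ M) ?_ ?_
  · calc _ = (f %ₘ M + M * (f /ₘ M)) + (g %ₘ M + M * (g /ₘ M)) := by ring
      _ = f + g := by
          rw [Polynomial.modByMonic_add_div, Polynomial.modByMonic_add_div]
  · exact lt_of_le_of_lt (Polynomial.degree_add_le _ _)
      (max_lt (Polynomial.degree_modByMonic_lt _ hM) (Polynomial.degree_modByMonic_lt _ hM))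

theorem C_mul_div {R : Type*} [CommRing R] {M : Polynomial R} (hM : M.Monic) (c : R)
    (f : Polynomial R) : (Polynomial.C c * f) /ₘ M = Polynomial.C c * (f /ₘ M) := by
  nontriviality R
  refine divByMonic_unique' hM (r := Polynomial.C c * (f %ₘ M)) ?_ ?_
  · calc _ = Polynomial.C c * (f %ₘ M + M * (f /ₘ M)) := by ring
      _ = _ := by rw [Polynomial.modByMonic_add_div]
  · refine lt_of_le_of_lt ?_ (Polynomial.degree_modByMonic_lt f hM)
    rw [Polynomial.C_mul']
    exact Polynomial.degree_smul_le _ _

theorem mul_mul_div {R : Type*} [CommRing R] {P M : Polynomial R} (hP : P.Monic) (hM : M.Monic)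
    (f : Polynomial R) : (P * f) /ₘ (P * M) = f /ₘ M := by
  nontriviality R
  refine divByMonic_unique' (hP.mul hM) (r := P * (f %ₘ M)) ?_ ?_
  · calc _ = P * (f %ₘ M + M * (f /ₘ M)) := by ring
      _ = _ := by rw [Polynomial.modByMonic_add_div]
  · by_cases h0 : f %ₘ M = 0
    · rw [h0, mul_zero, Polynomial.degree_zero, bot_lt_iff_ne_bot]
      intro h
      exact (hP.mul hM).ne_zero (Polynomial.degree_eq_bot.1 h)
    · have h1 := Polynomial.degree_modByMonic_lt f hM
      rw [hM.degree_mul, mul_comm P, hP.degree_mul, add_comm P.degree]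
      rw [Polynomial.degree_eq_natDegree hP.ne_zero]
      rw [Polynomial.degree_eq_natDegree h0, Polynomial.degree_eq_natDegree hM.ne_zero] at *
      have h2 : (f %ₘ M).natDegree < M.natDegree := by exact_mod_cast h1
      exact_mod_cast Nat.add_lt_add_right h2 _

section ops

variable {k : Type*} [CommRing k] {V : Type*}

theorem q_add (L : Multiset (Edge k V)) (U : Set V) (g h : MvPolynomial V k) :
    q L U (g + h) = q L U g + q L U h := by
  unfold q
  rw [map_add, add_div (monic_shift_Ys L U), Polynomial.eval_add]

theorem q_mul_of_inv {L : Multiset (Edge k V)} {U : Set V} {c : MvPolynomial V k}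
    (hc : shift U c = Polynomial.C c) (g : MvPolynomial V k) : q L U (c * g) = c * q L U g := by
  unfold q
  rw [map_mul, hc, C_mul_div (monic_shift_Ys L U), Polynomial.eval_mul, Polynomial.eval_C]

theorem q_Ys_mul (L : Multiset (Edge k V)) (U : Set V) (h : MvPolynomial V k) :
    q L U (Ys L U * h) = h := by
  unfold q
  rw [map_mul, Polynomial.mul_divByMonic_cancel_left _ (monic_shift_Ys L U), eval_shift]

theorem proj_add (L : Multiset (Edge k V)) (U : Set V) (g h : MvPolynomial V k) :
    proj L U (g + h) = proj L U g + proj L U h := by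
  unfold proj; rw [q_add]; ring

theorem proj_Y_mul (L : Multiset (Edge k V)) (U : Set V) (h : MvPolynomial V k) :
    proj L U (Y L U * h) = Y L U * h := by
  obtain ⟨s, hs, hY⟩ := Ys_eq L U
  have : Y L U * h = Ys L U * (s * h) := by
    rw [hY]; calc _ = (s * s) * Y L U * h := by rw [hs]; ring
      _ = _ := by ring
  rw [this]
  unfold proj
  rw [q_Ys_mul]

/-- `proj` as an additive map -/
def projHom (L : Multiset (Edge k V)) (U : Set V) : MvPolynomial V k →+ MvPolynomial V k where
  toFun := proj L U
  map_zero' := by
    have := proj_add L U 0 0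
    simpa using this
  map_add' := proj_add L U

theorem proj_zero (L : Multiset (Edge k V)) (U : Set V) : proj L U 0 = 0 := (projHom L U).map_zero

/-- `proj` preserves the multiples of every cut product. -/
theorem proj_preserves (L : Multiset (Edge k V)) (U U' : Set V) (h : MvPolynomial V k) :
    ∃ h', proj L U (Y L U' * h) = Y L U' * h' := by
  obtain ⟨s, hs, hY⟩ := Ys_eq L U
  -- split `Y L U'`
  have h1 : Y L U' = (((L.filter (cuts U')).filter (cuts U)).map form).prod *
      (((L.filter (cuts U')).filter (fun e => ¬ cuts U e)).map form).prod := by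
    unfold Y
    rw [← Multiset.prod_add, ← Multiset.map_add, Multiset.filter_add_not]
  have h2 : Y L U = (((L.filter (cuts U)).filter (cuts U')).map form).prod *
      (((L.filter (cuts U)).filter (fun e => ¬ cuts U' e)).map form).prod := by
    unfold Y
    rw [← Multiset.prod_add, ← Multiset.map_add, Multiset.filter_add_not]
  have h3 : ((L.filter (cuts U')).filter (cuts U)) = ((L.filter (cuts U)).filter (cuts U')) := by
    rw [Multiset.filter_filter, Multiset.filter_filter]
    apply Multiset.filter_congr
    intro e _; exact and_comm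
  set P := (((L.filter (cuts U)).filter (cuts U')).map form).prod with hP
  set N := (((L.filter (cuts U')).filter (fun e => ¬ cuts U e)).map form).prod with hN
  set M := (((L.filter (cuts U)).filter (fun e => ¬ cuts U' e)).map form).prod with hM
  have hinv : shift U N = Polynomial.C N := by
    rw [hN, map_multiset_prod, map_multiset_prod, Multiset.map_map, Multiset.map_map]
    congr 1
    apply Multiset.map_congr rfl
    intro e he
    exact shift_form_of_not_cuts (Multiset.mem_filter.1 he).2
  rw [h3, ← hP] at h1
  refine ⟨s * M * q L U (P * h), ?_⟩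
  have : Y L U' * h = N * (P * h) := by rw [h1]; ring
  rw [this]
  unfold proj
  rw [q_mul_of_inv hinv, hY, h2, h1]; ring

theorem proj_mem {L : Multiset (Edge k V)} {U : Set V} (h : U.Nonempty) (h' : Uᶜ.Nonempty)
    (g : MvPolynomial V k) : proj L U g ∈ cutI L := by
  obtain ⟨s, hs, hY⟩ := Ys_eq L U
  unfold proj
  rw [hY]
  exact Ideal.mul_mem_right _ _ (Ideal.mul_mem_left _ _ (Y_mem h h'))

theorem Ys_cons (e : Edge k V) (L : Multiset (Edge k V)) (U : Set V) :
    Ys (e ::ₘ L) U = (if cuts U e then sform U e else 1) * Ys L U := by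
  unfold Ys
  by_cases h : cuts U e <;> simp [h]

/-- compatibility of the projections for two arrangements -/
theorem proj_cons (e : Edge k V) (L : Multiset (Edge k V)) (U : Set V) (g : MvPolynomial V k) :
    proj (e ::ₘ L) U (form e * g) = form e * proj L U g := by
  by_cases h : cuts U e
  · obtain ⟨s, hs, hf⟩ : ∃ s : MvPolynomial V k, shift U s = Polynomial.C s ∧
        form e = sform U e * s := by
      by_cases h1 : e.1 ∈ U
      · exact ⟨1, by simp, by simp [sform, h1]⟩
      · exact ⟨-1, by simp, by simp [sform, h1]⟩
    have hm : (shift U (sform U e)).Monic := by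
      rw [shift_sform_of_cuts h]; exact Polynomial.monic_X_add_C _
    have hq : q (e ::ₘ L) U (form e * g) = q L U (s * g) := by
      unfold q
      rw [Ys_cons, if_pos h, hf, mul_assoc, map_mul, map_mul (shift U) (sform U e) (Ys L U)]
      rw [mul_mul_div hm (monic_shift_Ys L U)]
    unfold proj
    rw [hq, q_mul_of_inv hs, Ys_cons, if_pos h, hf]
    ring
  · have hY : Ys (e ::ₘ L) U = Ys L U := by rw [Ys_cons, if_neg h, one_mul]
    have hq : q (e ::ₘ L) U g = q L U g := by unfold q; rw [hY]
    unfold proj
    rw [q_mul_of_inv (shift_form_of_not_cuts h), hY, hq]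
    ring

/-- `(1 - Π_{U₁}) ∘ ... ∘ (1 - Π_{U_N})`. -/
def projList (L : Multiset (Edge k V)) : List (Set V) → MvPolynomial V k →+ MvPolynomial V k
  | [] => AddMonoidHom.id _
  | U :: T => (projList L T) - (projHom L U).comp (projList L T)

theorem projList_cons (L : Multiset (Edge k V)) (U : Set V) (T : List (Set V))
    (g : MvPolynomial V k) :
    projList L (U :: T) g = projList L T g - proj L U (projList L T g) := rfl

theorem projList_preserves (L : Multiset (Edge k V)) (T : List (Set V)) (U' : Set V)
    (h : MvPolynomial V k) : ∃ h', projList L T (Y L U' * h) = Y L U' * h' := by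
  induction T with
  | nil => exact ⟨h, rfl⟩
  | cons U T ih =>
    obtain ⟨h', hh⟩ := ih
    obtain ⟨h'', h2⟩ := proj_preserves L U U' h'
    exact ⟨h' - h'', by rw [projList_cons, hh, h2]; ring⟩

theorem projList_kills (L : Multiset (Edge k V)) (T : List (Set V)) {U : Set V} (hU : U ∈ T)
    (h : MvPolynomial V k) : projList L T (Y L U * h) = 0 := by
  induction T with
  | nil => simp at hU
  | cons U' T ih =>
    rw [projList_cons]
    by_cases hUL : U ∈ T
    · rw [ih hUL, proj_zero, sub_zero]
    · have : U = U' := by simpa [hUL] using hU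
      subst this
      obtain ⟨h', hh⟩ := projList_preserves L T U h
      rw [hh, proj_Y_mul, sub_self]

theorem projList_sub_mem (L : Multiset (Edge k V)) (T : List (Set V))
    (hT : ∀ U ∈ T, U.Nonempty ∧ Uᶜ.Nonempty) (g : MvPolynomial V k) :
    projList L T g - g ∈ cutI L := by
  induction T with
  | nil => simp [projList]
  | cons U T ih =>
    have ih' := ih (fun U' h => hT U' (List.mem_cons_of_mem _ h))
    have hU := hT U List.mem_cons_self
    rw [projList_cons]
    have : projList L T g - proj L U (projList L T g) - g =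
      (projList L T g - g) - proj L U (projList L T g) := by ring
    rw [this]
    exact Ideal.sub_mem _ ih' (proj_mem hU.1 hU.2 _)

theorem projList_edge (L : Multiset (Edge k V)) (T : List (Set V)) (e : Edge k V)
    (g : MvPolynomial V k) : projList (e ::ₘ L) T (form e * g) = form e * projList L T g := by
  induction T with
  | nil => rfl
  | cons U T ih => rw [projList_cons, ih, proj_cons, projList_cons]; ring

theorem projList_of_mem {L : Multiset (Edge k V)} {T : List (Set V)}
    (hT : ∀ U : Set V, U.Nonempty → Uᶜ.Nonempty → U ∈ T) {g : MvPolynomial V k}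
    (hg : g ∈ cutI L) : projList L T g = 0 := by
  refine Submodule.closure_induction (p := fun x _ => projList L T x = 0) ?_ ?_ ?_ hg
  · exact map_zero _
  · intro x y _ _ hx hy
    rw [map_add, hx, hy, add_zero]
  · rintro r x ⟨U, hU, hU', rfl⟩
    rw [smul_eq_mul, mul_comm]
    exact projList_kills L T (hT U hU hU') r

/-- **Removal lemma** -/
theorem removal [Finite V] [IsDomain k] {L : Multiset (Edge k V)} {e : Edge k V}
    (he : form e ≠ 0) {g : MvPolynomial V k} (h : form e * g ∈ cutI (e ::ₘ L)) : g ∈ cutI L := by
  have hfin : {U : Set V | U.Nonempty ∧ Uᶜ.Nonempty}.Finite := Set.toFinite _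
  let T : List (Set V) := hfin.toFinset.toList
  have hT : ∀ U : Set V, U ∈ T ↔ (U.Nonempty ∧ Uᶜ.Nonempty) := by
    intro U; simp [T]
  have h1 := projList_of_mem (T := T) (fun U h h' => (hT U).2 ⟨h, h'⟩) h
  rw [projList_edge] at h1
  have h2 : projList L T g = 0 := (mul_eq_zero.1 h1).resolve_left he
  have h3 := projList_sub_mem L T (fun U hU => (hT U).1 hU) g
  rw [h2, zero_sub] at h3
  exact (Ideal.neg_mem_iff _).1 h3

/-- removal of several edges -/
theorem removal_multi [Finite V] [IsDomain k] {L M : Multiset (Edge k V)}
    (hM : ∀ e ∈ M, form e ≠ 0) {g : MvPolynomial V k}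
    (h : (M.map form).prod * g ∈ cutI (M + L)) : g ∈ cutI L := by
  induction M using Multiset.induction_on generalizing g with
  | empty => simpa using h
  | cons e M ih =>
    rw [Multiset.map_cons, Multiset.prod_cons, mul_assoc, Multiset.cons_add] at h
    exact ih (fun e' he' => hM e' (Multiset.mem_cons_of_mem he'))
      (removal (hM e (Multiset.mem_cons_self e M)) h)

/-- adding edges: multiply by the forms -/
theorem mul_mem_add (L M : Multiset (Edge k V)) {g : MvPolynomial V k} (h : g ∈ cutI L) :
    (M.map form).prod * g ∈ cutI (M + L) := by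
  refine Submodule.closure_induction (p := fun x _ => (M.map form).prod * x ∈ cutI (M + L))
    ?_ ?_ ?_ h
  · simp
  · intro x y _ _ hx hy
    rw [mul_add]; exact Ideal.add_mem _ hx hy
  · rintro r x ⟨U, hU, hU', rfl⟩
    have h1 : (M.map form).prod = Y M U * ((M.filter (fun e => ¬ cuts U e)).map form).prod := by
      unfold Y
      rw [← Multiset.prod_add, ← Multiset.map_add, Multiset.filter_add_not]
    have h2 : (M.map form).prod * (r • Y L U) =
        (r * ((M.filter (fun e => ¬ cuts U e)).map form).prod) * Y (M + L) U := by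
      rw [smul_eq_mul, h1, Y_add]; ring
    rw [h2]
    exact Ideal.mul_mem_left _ _ (Y_mem hU hU')

end ops

end

end Vale.Agent.P291.H882
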