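import Mathlib

/-!
# Multivariate Lagrange interpolation, cleared denominators
-/

open scoped Classical

namespace Vale.Agent.P291.H882

noncomputable section

variable {S : Type*} [CommRing S] {K A : Type*} [Fintype K] [Fintype A]

/-- `w k = ∏_{l ≠ k} (c k - c l)` -/
def ww (c : K → S) (k : K) : S := ∏ l ∈ Finset.univ.filter (fun l => l ≠ k), (c k - c l)

/-- `δ k = ∏_{j ≠ k} w j` -/
def dd (c : K → S) (k : K) : S := ∏ j ∈ Finset.univ.filter (fun j => j ≠ k), ww c j

/-- `Δ = ∏ w k` -/
def DD (c : K → S) : S := ∏ k, ww c k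

/-- `∏_{l ≠ k} (z - c l)` -/
def ll (c : K → S) (k : K) (z : S) : S := ∏ l ∈ Finset.univ.filter (fun l => l ≠ k), (z - c l)

/-- `∏_l (z - c l)` -/
def NN (c : K → S) (z : S) : S := ∏ l, (z - c l)

theorem DD_eq (c : K → S) (k : K) : DD c = dd c k * ww c k := by
  unfold DD dd
  rw [← Finset.prod_filter_mul_prod_filter_not Finset.univ (fun j => j ≠ k)]
  congr 1
  have : Finset.univ.filter (fun j => ¬ j ≠ k) = {k} := by ext j; simp
  rw [this, Finset.prod_singleton]

theorem ll_self (c : K → S) (k : K) : ll c k (c k) = ww c k := rfl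

theorem ll_ne (c : K → S) {k j : K} (h : j ≠ k) : ll c k (c j) = 0 :=
  Finset.prod_eq_zero (i := j) (by simp [h]) (sub_self _)

theorem lagr1 [IsDomain S] (c : K → S) (hc : Function.Injective c) (z : S) (e : ℕ) :
    ∃ q, DD c * z ^ e = (∑ k, c k ^ e * (dd c k * ll c k z)) + NN c z * q := by
  -- work in the polynomial ring
  let p : Polynomial S := Polynomial.C (DD c) * Polynomial.X ^ e -
    ∑ k, Polynomial.C (c k ^ e * dd c k) *
      ∏ l ∈ Finset.univ.filter (fun l => l ≠ k), (Polynomial.X - Polynomial.C (c l))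
  have hz : ∀ z, p.eval z = DD c * z ^ e - ∑ k, c k ^ e * (dd c k * ll c k z) := by
    intro z
    simp only [p, Polynomial.eval_sub, Polynomial.eval_mul, Polynomial.eval_C, Polynomial.eval_pow,
      Polynomial.eval_X, Polynomial.eval_finset_sum, Polynomial.eval_prod]
    congr 1
    apply Finset.sum_congr rfl
    intro k _
    unfold ll; ring
  have hr : ∀ j, p.eval (c j) = 0 := by
    intro j
    rw [hz, Finset.sum_eq_single j]
    · rw [ll_self, DD_eq c j]; ring
    · intro k _ hk
      rw [ll_ne c (Ne.symm hk)]; ring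
    · intro h; exact absurd (Finset.mem_univ j) h
  have hdvd : (∏ l, (Polynomial.X - Polynomial.C (c l))) ∣ p := by
    by_cases hp : p = 0
    · rw [hp]; exact dvd_zero _
    · have h1 := (Multiset.prod_X_sub_C_dvd_iff_le_roots hp ((Finset.univ : Finset K).val.map c)).2
        ?_
      · rw [Multiset.map_map] at h1
        exact h1
      · rw [Multiset.le_iff_subset (Multiset.Nodup.map hc Finset.univ.nodup)]
        intro a ha
        obtain ⟨j, _, rfl⟩ := Multiset.mem_map.1 ha
        exact (Polynomial.mem_roots hp).2 (hr j)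
  obtain ⟨q, hq⟩ := hdvd
  refine ⟨q.eval z, ?_⟩
  have h2 := congrArg (Polynomial.eval z) hq
  rw [hz, Polynomial.eval_mul, Polynomial.eval_prod] at h2
  have h3 : NN c z = ∏ l, Polynomial.eval z (Polynomial.X - Polynomial.C (c l)) := by
    unfold NN; simp
  rw [h3]
  linear_combination h2

/-- **Multivariate Lagrange interpolation** -/
theorem lagr [IsDomain S] (c : K → S) (hc : Function.Injective c) (x : A → S)
    (P : MvPolynomial A S) :
    DD c ^ Fintype.card A * MvPolynomial.eval x P -
      ∑ κ : A → K, MvPolynomial.eval (fun a => c (κ a)) P *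
        ∏ a, (dd c (κ a) * ll c (κ a) (x a)) ∈ Ideal.span (Set.range fun a => NN c (x a)) := by
  induction P using MvPolynomial.induction_on' with
  | add P Q hP hQ =>
    have := Ideal.add_mem _ hP hQ
    convert this using 1
    simp only [map_add, add_mul, Finset.sum_add_distrib]
    ring
  | monomial s r =>
    choose q hq using fun a => lagr1 c hc (x a) (s a)
    have h1 : DD c ^ Fintype.card A * MvPolynomial.eval x (MvPolynomial.monomial s r) =
        r * ∏ a, (DD c * x a ^ s a) := by
      rw [MvPolynomial.eval_monomial, Finset.prod_mul_distrib, Finset.prod_const,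
        Finset.card_univ, Finsupp.prod_fintype _ _ (by intro i; simp)]
      ring
    have h2 : ∑ κ : A → K, MvPolynomial.eval (fun a => c (κ a)) (MvPolynomial.monomial s r) *
        ∏ a, (dd c (κ a) * ll c (κ a) (x a)) =
        r * ∏ a, ∑ k, c k ^ s a * (dd c k * ll c k (x a)) := by
      rw [Finset.prod_univ_sum, Finset.mul_sum]
      rw [Fintype.piFinset_univ]
      apply Finset.sum_congr rfl
      intro κ _
      rw [MvPolynomial.eval_monomial, Finsupp.prod_fintype _ _ (by intro i; simp),
        mul_assoc, ← Finset.prod_mul_distrib]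
    rw [h1, h2, ← mul_sub]
    refine Ideal.mul_mem_left _ _ ?_
    -- difference of products
    rw [← Ideal.Quotient.eq_zero_iff_mem, map_sub, map_prod, map_prod, sub_eq_zero]
    apply Finset.prod_congr rfl
    intro a _
    rw [hq a, map_add]
    have : (Ideal.Quotient.mk (Ideal.span (Set.range fun a => NN c (x a)))) (NN c (x a) * q a) = 0 :=
      Ideal.Quotient.eq_zero_iff_mem.2 (Ideal.mul_mem_right _ _ (Ideal.subset_span ⟨a, rfl⟩))
    rw [this, add_zero]

end

end Vale.Agent.P291.H882
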