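import Vale.Agent.P291.H882.Arr
import Vale.Agent.P291.H882.Lagr

/-!
# Reflection of cut ideals

Boxes `O ⊕ A`; the boxes of `A` are joined to the points `c κ = x_{b κ} + m κ`, `κ ∈ K`,
`b κ ∈ O`.  For `D' ∈ k[O]`, `VA = ∏_{a ≠ a'} (x_a - x_a')`:
`D' VA` lies in the cut ideal iff `D'` lies in the cut ideals of `L + {(κ, κ') : κ ∈ S, κ' ∉ S}` for
all `S ⊆ K` with `|S| = |A|`.
-/

open MvPolynomial

open scoped Classical

set_option linter.unusedSectionVars false

namespace Vale.Agent.P291.H882

noncomputable section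

variable {k : Type*} [CommRing k] {V W : Type*}

/-- transport of an edge -/
def mapE (f : V → W) (e : Edge k V) : Edge k W := (f e.1, f e.2.1, e.2.2)

theorem form_mapE (f : V → W) (e : Edge k V) : form (mapE f e) = rename f (form e) := by
  simp [form, mapE]

theorem cuts_mapE (f : V → W) (U : Set W) (e : Edge k V) :
    cuts U (mapE f e) ↔ cuts (f ⁻¹' U) e := Iff.rfl

theorem Y_mapE (f : V → W) (L : Multiset (Edge k V)) (U : Set W) :
    Y (L.map (mapE f)) U = rename f (Y L (f ⁻¹' U)) := by
  unfold Y
  rw [Multiset.filter_map, Multiset.map_map, map_multiset_prod, Multiset.map_map]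
  congr 1
  apply Multiset.map_congr
  · rfl
  · intro e _
    exact form_mapE f e

theorem Y_finset {ι : Type*} (s : Finset ι) (f : ι → Edge k V) (U : Set V) :
    Y (s.val.map f) U = ∏ i ∈ s.filter (fun i => cuts U (f i)), form (f i) := by
  unfold Y
  rw [Multiset.filter_map, Multiset.map_map]
  rfl

section refl

variable {O A K : Type*} [Fintype A] [Fintype K] (b : K → O) (m : K → k)

/-- the points `c κ` -/
def cc (κ : K) : MvPolynomial O k := X (b κ) + C (m κ)

/-- edges joining `A` and the points -/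
def crossE : Multiset (Edge k (O ⊕ A)) :=
  (Finset.univ : Finset (A × K)).val.map (fun p => (Sum.inr p.1, Sum.inl (b p.2), - m p.2))

/-- all the edges -/
def LA (A : Type*) [Fintype A] (L : Multiset (Edge k O)) : Multiset (Edge k (O ⊕ A)) :=
  L.map (mapE Sum.inl) + crossE b m

/-- edge joining two points -/
def eK (p : K × K) : Edge k O := (b p.1, b p.2, m p.1 - m p.2)

theorem form_eK (p : K × K) : form (eK b m p) = cc b m p.1 - cc b m p.2 := by
  simp [form, eK, cc]; ring

/-- edges joining points in `S` and outside `S` -/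
def Eo (S : Finset K) : Multiset (Edge k O) := (S ×ˢ Sᶜ).val.map (eK b m)

/-- `∏_{a ≠ a'} (x_a - x_a')` -/
def VA (k O A : Type*) [CommRing k] [Fintype A] : MvPolynomial (O ⊕ A) k :=
  ∏ p ∈ (Finset.univ : Finset (A × A)).filter (fun p => p.1 ≠ p.2),
    (X (Sum.inr p.1) - X (Sum.inr p.2))

/-- evaluation at `x_a = c (κ a)` -/
def ev (κ : A → K) : MvPolynomial (O ⊕ A) k →ₐ[k] MvPolynomial O k :=
  aeval (Sum.elim X (fun a => cc b m (κ a)))

theorem ev_rename (κ : A → K) (f : MvPolynomial O k) : ev b m κ (rename Sum.inl f) = f := by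
  unfold ev
  rw [aeval_rename]
  have : (Sum.elim X (fun a => cc b m (κ a)) ∘ Sum.inl : O → MvPolynomial O k) = X := by
    funext o; rfl
  rw [this, aeval_X_left]; rfl

theorem Y_crossE (U : Set (O ⊕ A)) : Y (crossE (A := A) b m) U =
    ∏ p ∈ (Finset.univ : Finset (A × K)).filter
      (fun p => ¬ (Sum.inr p.1 ∈ U ↔ Sum.inl (b p.2) ∈ U)),
      (X (Sum.inr p.1) - rename Sum.inl (cc b m p.2)) := by
  unfold crossE
  rw [Y_finset]
  apply Finset.prod_congr
  · ext p
    simp only [Finset.mem_filter, Finset.mem_univ, true_and]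
    exact Iff.rfl
  · intro p _
    simp [form, cc]; ring

/-- the full set of edges seen from `κ` -/
def Efull (κ : A → K) : Multiset (Edge k O) :=
  ((Finset.univ : Finset (A × K)).filter (fun p => p.2 ≠ κ p.1)).val.map
    (fun p => eK b m (κ p.1, p.2))

theorem ev_Y (κ : A → K) (L : Multiset (Edge k O)) (U : Set (O ⊕ A)) :
    ev b m κ (Y (LA b m A L) U) = 0 ∨
    ((∀ a, Sum.inr a ∈ U ↔ Sum.inl (b (κ a)) ∈ U) ∧
      ev b m κ (Y (LA b m A L) U) = Y (L + Efull b m κ) (Sum.inl ⁻¹' U)) := by
  by_cases h : ∀ a, Sum.inr a ∈ U ↔ Sum.inl (b (κ a)) ∈ U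
  · right
    refine ⟨h, ?_⟩
    unfold LA
    rw [Y_add, Y_mapE, map_mul, ev_rename, Y_add, Y_crossE, map_prod]
    congr 1
    unfold Efull
    rw [Y_finset, Finset.filter_filter]
    apply Finset.prod_congr
    · ext p
      simp only [Finset.mem_filter, Finset.mem_univ, true_and]
      rw [h p.1]
      constructor
      · intro h1
        refine ⟨?_, h1⟩
        intro h2
        apply h1
        rw [h2]
      · intro h1
        exact h1.2
    · intro p _
      rw [map_sub, ev_rename, form_eK]
      simp [ev]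
  · left
    push Not at h
    obtain ⟨a, ha⟩ := h
    unfold LA
    rw [Y_add, map_mul, Y_crossE, map_prod]
    rw [Finset.prod_eq_zero (i := (a, κ a)), mul_zero]
    · simp only [Finset.mem_filter, Finset.mem_univ, true_and]
      tauto
    · rw [map_sub, ev_rename]
      simp [ev]

theorem ev_mem (κ : A → K) (L : Multiset (Edge k O)) {f : MvPolynomial (O ⊕ A) k}
    (hf : f ∈ cutI (LA b m A L)) : ev b m κ f ∈ cutI (L + Efull b m κ) := by
  have : cutI (LA b m A L) ≤ (cutI (L + Efull b m κ)).comap (ev b m κ) := by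
    unfold cutI
    rw [Ideal.span_le]
    rintro z ⟨U, hU, hU', rfl⟩
    rw [SetLike.mem_coe, Ideal.mem_comap]
    rcases ev_Y b m κ L U with h | ⟨h1, h2⟩
    · rw [h]; exact Ideal.zero_mem _
    · rw [h2]
      refine Ideal.subset_span ⟨_, ?_, ?_, rfl⟩
      · obtain ⟨x, hx⟩ := hU
        rcases x with o | a
        · exact ⟨o, hx⟩
        · exact ⟨b (κ a), (h1 a).1 hx⟩
      · obtain ⟨x, hx⟩ := hU'
        rcases x with o | a
        · exact ⟨o, hx⟩
        · exact ⟨b (κ a), fun h => hx ((h1 a).2 h)⟩
  exact this hf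

theorem Efull_eq (κ : A ↪ K) : Efull b m κ =
    ((Finset.univ : Finset (A × A)).filter (fun p => p.1 ≠ p.2)).val.map
      (fun p => eK b m (κ p.1, κ p.2)) + Eo b m (Finset.univ.map κ) := by
  have h1 : Eo b m (Finset.univ.map κ) = ((Finset.univ : Finset (A × K)).filter
      (fun p => p.2 ∉ Finset.univ.map κ)).val.map (fun p => eK b m (κ p.1, p.2)) := by
    unfold Eo
    have : (Finset.univ.map κ ×ˢ (Finset.univ.map κ)ᶜ) =
        ((Finset.univ : Finset (A × K)).filter (fun p => p.2 ∉ Finset.univ.map κ)).map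
          (κ.prodMap (Function.Embedding.refl K)) := by
      ext ⟨p, l⟩
      simp only [Finset.mem_product, Finset.mem_map, Finset.mem_univ, true_and, Finset.mem_compl,
        Finset.mem_filter, Function.Embedding.prodMap, Function.Embedding.coeFn_mk, Prod.exists,
        Prod.map_apply, Function.Embedding.refl_apply, Prod.mk.injEq]
      constructor
      · rintro ⟨⟨a, ha⟩, h⟩
        exact ⟨a, l, h, ha, rfl⟩
      · rintro ⟨a, l', h, ha, rfl⟩
        exact ⟨⟨a, ha⟩, h⟩
    rw [this, Finset.map_val, Multiset.map_map]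
    rfl
  have h2 : ((Finset.univ : Finset (A × A)).filter (fun p => p.1 ≠ p.2)).val.map
      (fun p => eK b m (κ p.1, κ p.2)) = (((Finset.univ : Finset (A × K)).filter
      (fun p => p.2 ≠ κ p.1)).filter (fun p => ¬ p.2 ∉ Finset.univ.map κ)).val.map
        (fun p => eK b m (κ p.1, p.2)) := by
    have : (((Finset.univ : Finset (A × K)).filter
      (fun p => p.2 ≠ κ p.1)).filter (fun p => ¬ p.2 ∉ Finset.univ.map κ)) =
        ((Finset.univ : Finset (A × A)).filter (fun p => p.1 ≠ p.2)).map
          ((Function.Embedding.refl A).prodMap κ) := by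
      ext ⟨a, l⟩
      simp only [Finset.mem_map, Finset.mem_univ, true_and,
        Finset.mem_filter, Function.Embedding.prodMap, Function.Embedding.coeFn_mk, Prod.exists,
        Prod.map_apply, Function.Embedding.refl_apply, Prod.mk.injEq, not_not]
      constructor
      · rintro ⟨h, a', ha'⟩
        refine ⟨a, a', ?_, rfl, ha'⟩
        intro h'; apply h; rw [← ha', h']
      · rintro ⟨a1, a2, h, rfl, rfl⟩
        refine ⟨?_, a2, rfl⟩
        intro h'; exact h (κ.injective h').symm
    rw [this, Finset.map_val, Multiset.map_map]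
    rfl
  unfold Efull
  rw [h1, h2, ← Multiset.map_add]
  congr 1
  have h3 : ((Finset.univ : Finset (A × K)).filter (fun p => p.2 ∉ Finset.univ.map κ)) =
      (((Finset.univ : Finset (A × K)).filter
      (fun p => p.2 ≠ κ p.1)).filter (fun p => p.2 ∉ Finset.univ.map κ)) := by
    rw [Finset.filter_filter]
    apply Finset.filter_congr
    intro p _
    constructor
    · intro h
      refine ⟨?_, h⟩
      intro h'
      apply h
      rw [h']; simp
    · exact fun h => h.2
  rw [h3, add_comm]
  exact (Multiset.filter_add_not (fun p : A × K => p.2 ∉ Finset.univ.map κ) _).symm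

/-- direction (**): from the cut ideal on `O ⊕ A` to `O` -/
theorem down [Finite O] [IsDomain k] (hc : Function.Injective (cc b m)) (L : Multiset (Edge k O))
    (D' : MvPolynomial O k) (h : rename Sum.inl D' * VA k O A ∈ cutI (LA b m A L)) (κ : A ↪ K) :
    D' ∈ cutI (L + Eo b m (Finset.univ.map κ)) := by
  have h1 := ev_mem b m κ L h
  rw [map_mul, ev_rename, Efull_eq] at h1
  have h2 : ev b m κ (VA k O A) = ((((Finset.univ : Finset (A × A)).filter
      (fun p => p.1 ≠ p.2)).val.map (fun p => eK b m (κ p.1, κ p.2))).map form).prod := by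
    unfold VA
    rw [map_prod, Multiset.map_map]
    apply Finset.prod_congr rfl
    intro p _
    simp only [Function.comp, form_eK]
    simp [ev]
  rw [h2] at h1
  refine removal_multi (M := ((Finset.univ : Finset (A × A)).filter
      (fun p => p.1 ≠ p.2)).val.map (fun p => eK b m (κ p.1, κ p.2))) ?_ ?_
  · intro e he
    obtain ⟨p, hp, rfl⟩ := Multiset.mem_map.1 he
    have hp' : p.1 ≠ p.2 := (Finset.mem_filter.1 hp).2
    rw [form_eK, sub_ne_zero]
    intro h'; exact hp' (κ.injective (hc h'))
  · rw [mul_comm]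
    have h3 : L + (((Finset.univ : Finset (A × A)).filter
      (fun p => p.1 ≠ p.2)).val.map (fun p => eK b m (κ p.1, κ p.2)) +
        Eo b m (Finset.univ.map κ)) = ((Finset.univ : Finset (A × A)).filter
      (fun p => p.1 ≠ p.2)).val.map (fun p => eK b m (κ p.1, κ p.2)) +
        (L + Eo b m (Finset.univ.map κ)) := by
      rw [add_left_comm]
    rw [← h3]
    exact h1

end refl

end

end Vale.Agent.P291.H882
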