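import Vale.Agent.P291.H882.Refl

/-!
# Reflection of cut ideals, second half
-/

open MvPolynomial

open scoped Classical

set_option linter.unusedSectionVars false

namespace Vale.Agent.P291.H882

noncomputable section

variable {k : Type*} [CommRing k] {O A K : Type*} [Fintype A] [Fintype K] (b : K → O) (m : K → k)

/-- extension of a cut from `O` to `O ⊕ A` along `κ` -/
theorem up_ext (κ : A → K) (L : Multiset (Edge k O)) {D' : MvPolynomial O k}
    (h : D' ∈ cutI L) :
    rename Sum.inl D' * ∏ p ∈ (Finset.univ : Finset (A × K)).filter (fun p => p.2 ≠ κ p.1),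
      (X (Sum.inr p.1) - rename Sum.inl (cc b m p.2)) ∈ cutI (LA b m A L) := by
  set PP : MvPolynomial (O ⊕ A) k :=
    ∏ p ∈ (Finset.univ : Finset (A × K)).filter (fun p => p.2 ≠ κ p.1),
      (X (Sum.inr p.1) - rename Sum.inl (cc b m p.2)) with hPP
  refine Submodule.closure_induction (p := fun x _ => rename Sum.inl x * PP ∈ cutI (LA b m A L))
    ?_ ?_ ?_ h
  · simp
  · intro x y _ _ hx hy
    rw [map_add, add_mul]; exact Ideal.add_mem _ hx hy
  · rintro r x ⟨U, hU, hU', rfl⟩
    let U' : Set (O ⊕ A) := {x | Sum.elim (fun o => o ∈ U) (fun a => b (κ a) ∈ U) x}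
    have hl : ∀ o, Sum.inl o ∈ U' ↔ o ∈ U := fun o => Iff.rfl
    have hr : ∀ a, Sum.inr a ∈ U' ↔ b (κ a) ∈ U := fun a => Iff.rfl
    have h1 : Y (crossE b m) U' ∣ PP := by
      rw [Y_crossE, hPP]
      apply Finset.prod_dvd_prod_of_subset
      intro p hp
      simp only [Finset.mem_filter, Finset.mem_univ, true_and] at hp ⊢
      intro h2
      apply hp
      rw [hr, hl, h2]
    obtain ⟨z, hz⟩ := h1
    have h2 : Y (LA b m A L) U' = rename Sum.inl (Y L U) * Y (crossE b m) U' := by
      unfold LA
      rw [Y_add, Y_mapE]; rfl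
    have h3 : rename Sum.inl (r • Y L U) * PP = (rename Sum.inl r * z) * Y (LA b m A L) U' := by
      rw [smul_eq_mul, map_mul, h2, hz]; ring
    rw [h3]
    refine Ideal.mul_mem_left _ _ (Y_mem ?_ ?_)
    · obtain ⟨o, ho⟩ := hU
      exact ⟨Sum.inl o, ho⟩
    · obtain ⟨o, ho⟩ := hU'
      exact ⟨Sum.inl o, ho⟩

/-- all pairs of points, lifted to `O ⊕ A` -/
def ED (A : Type*) : Multiset (Edge k (O ⊕ A)) :=
  ((Finset.univ : Finset (K × K)).filter (fun p => p.2 ≠ p.1)).val.map
    (fun p => mapE Sum.inl (eK b m p))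

theorem prod_ED : ((ED (k := k) b m A).map form).prod =
    DD (fun κ => rename Sum.inl (cc b m κ) : K → MvPolynomial (O ⊕ A) k) := by
  unfold ED DD ww
  rw [Multiset.map_map]
  have : ∏ κ : K, ∏ l ∈ Finset.univ.filter (fun l => l ≠ κ), ((rename Sum.inl (cc b m κ) :
      MvPolynomial (O ⊕ A) k) - rename Sum.inl (cc b m l)) =
      ∏ p ∈ (Finset.univ : Finset (K × K)).filter (fun p => p.2 ≠ p.1),
        ((rename Sum.inl (cc b m p.1) : MvPolynomial (O ⊕ A) k) - rename Sum.inl (cc b m p.2)) := by
    rw [Finset.prod_filter, ← Finset.univ_product_univ, Finset.prod_product]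
    apply Finset.prod_congr rfl
    intro κ _
    rw [Finset.prod_filter]
  rw [this]
  apply Finset.prod_congr rfl
  intro p _
  simp only [Function.comp, form_mapE, form_eK, map_sub]

theorem cc_ne {κ κ' : K} (hc : Function.Injective (cc b m)) (h : κ ≠ κ') :
    (rename Sum.inl (cc b m κ) : MvPolynomial (O ⊕ A) k) - rename Sum.inl (cc b m κ') ≠ 0 := by
  rw [sub_ne_zero]
  intro h'
  exact h (hc (rename_injective _ Sum.inl_injective h'))

/-- the term of an injective `κ` -/
theorem term_mem [Finite O] [IsDomain k] (hc : Function.Injective (cc b m))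
    (L : Multiset (Edge k O)) (D' : MvPolynomial O k) (κ : A ↪ K)
    (h : D' ∈ cutI (L + Eo b m (Finset.univ.map κ))) :
    let c : K → MvPolynomial (O ⊕ A) k := fun κ => rename Sum.inl (cc b m κ)
    rename Sum.inl D' * ((∏ p ∈ (Finset.univ : Finset (A × A)).filter (fun p => p.1 ≠ p.2),
      (c (κ p.1) - c (κ p.2))) * ∏ a, (dd c (κ a) * ll c (κ a) (X (Sum.inr a)))) ∈
        cutI (Fintype.card A • ED b m A + LA b m A L) := by
  intro c
  refine removal_multi (M := (Eo b m (Finset.univ.map κ)).map (mapE Sum.inl)) ?_ ?_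
  · intro e he
    obtain ⟨e', he', rfl⟩ := Multiset.mem_map.1 he
    obtain ⟨p, hp, rfl⟩ := Multiset.mem_map.1 he'
    rw [form_mapE, form_eK, map_sub]
    apply cc_ne b m hc
    intro h'
    have hp2 : p ∈ (Finset.univ.map κ ×ˢ (Finset.univ.map κ)ᶜ) := hp
    rw [Finset.mem_product, Finset.mem_compl, h'] at hp2
    exact hp2.2 hp2.1
  · have h1 := up_ext (A := A) b m κ _ h
    have h2 := mul_mem_add _ (Fintype.card A • ED b m A) h1
    have h3 : Fintype.card A • ED b m A + LA b m A (L + Eo b m (Finset.univ.map κ)) =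
        (Eo b m (Finset.univ.map κ)).map (mapE Sum.inl) +
          (Fintype.card A • ED b m A + LA b m A L) := by
      unfold LA
      rw [Multiset.map_add]
      abel
    rw [h3] at h2
    convert h2 using 1
    rw [Multiset.map_nsmul, Multiset.prod_nsmul, prod_ED]
    -- the algebraic identity
    have hE : ((Multiset.map (mapE Sum.inl) (Eo b m (Finset.univ.map κ))).map form).prod =
        ∏ a : A, ∏ l ∈ (Finset.univ.map κ)ᶜ, (c (κ a) - c l) := by
      unfold Eo
      rw [Multiset.map_map, Multiset.map_map]
      have : ∏ a : A, ∏ l ∈ (Finset.univ.map κ)ᶜ, (c (κ a) - c l) =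
          ∏ p ∈ Finset.univ.map κ ×ˢ (Finset.univ.map κ)ᶜ, (c p.1 - c p.2) := by
        rw [Finset.prod_product, Finset.prod_map]
      rw [this]
      apply Finset.prod_congr rfl
      intro p _
      simp only [Function.comp, form_mapE, form_eK, map_sub, c]
    have hV : ∏ p ∈ (Finset.univ : Finset (A × A)).filter (fun p => p.1 ≠ p.2),
        (c (κ p.1) - c (κ p.2)) = ∏ a : A, ∏ a' ∈ Finset.univ.filter (fun a' => a' ≠ a),
          (c (κ a) - c (κ a')) := by
      rw [Finset.prod_filter, ← Finset.univ_product_univ, Finset.prod_product]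
      apply Finset.prod_congr rfl
      intro a _
      rw [Finset.prod_filter]
      apply Finset.prod_congr rfl
      intro a' _
      by_cases h : a = a' <;> simp [h, eq_comm]
    have hw : ∀ a : A, ww c (κ a) = (∏ a' ∈ Finset.univ.filter (fun a' => a' ≠ a),
          (c (κ a) - c (κ a'))) * ∏ l ∈ (Finset.univ.map κ)ᶜ, (c (κ a) - c l) := by
      intro a
      unfold ww
      rw [← Finset.prod_filter_mul_prod_filter_not _ (fun l => l ∈ Finset.univ.map κ)]
      congr 1
      · rw [Finset.filter_filter]
        have : (Finset.univ.filter (fun l => l ≠ κ a ∧ l ∈ Finset.univ.map κ)) =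
            (Finset.univ.filter (fun a' => a' ≠ a)).map κ := by
          ext l
          simp only [Finset.mem_filter, Finset.mem_univ, true_and, Finset.mem_map]
          constructor
          · rintro ⟨h1, a', rfl⟩
            exact ⟨a', fun h => h1 (by rw [h]), rfl⟩
          · rintro ⟨a', h1, rfl⟩
            exact ⟨fun h => h1 (κ.injective h), a', rfl⟩
        rw [this, Finset.prod_map]
      · apply Finset.prod_congr _ (fun _ _ => rfl)
        ext l
        simp only [Finset.mem_filter, Finset.mem_univ, true_and, Finset.mem_compl]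
        constructor
        · exact fun h => h.2
        · refine fun h => ⟨?_, h⟩
          intro h'; apply h; rw [h']; simp
    have hD : DD c ^ Fintype.card A = ∏ a, (dd c (κ a) * ((∏ a' ∈ Finset.univ.filter
        (fun a' => a' ≠ a), (c (κ a) - c (κ a'))) *
          ∏ l ∈ (Finset.univ.map κ)ᶜ, (c (κ a) - c l))) := by
      rw [← Finset.card_univ, ← Finset.prod_const]
      apply Finset.prod_congr rfl
      intro a _
      rw [DD_eq c (κ a), hw a]
    have hP : ∏ p ∈ (Finset.univ : Finset (A × K)).filter (fun p => p.2 ≠ κ p.1),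
      (X (Sum.inr p.1) - rename Sum.inl (cc b m p.2)) = ∏ a : A, ll c (κ a) (X (Sum.inr a)) := by
      rw [Finset.prod_filter, ← Finset.univ_product_univ, Finset.prod_product]
      apply Finset.prod_congr rfl
      intro a _
      unfold ll
      rw [Finset.prod_filter]
    rw [hE, hV, hP]
    have hD' : DD (fun κ => rename Sum.inl (cc b m κ) : K → MvPolynomial (O ⊕ A) k) ^
        Fintype.card A = _ := hD
    rw [hD', Finset.prod_mul_distrib, Finset.prod_mul_distrib, Finset.prod_mul_distrib]
    ring

/-- direction (***): from `O` to `O ⊕ A` -/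
theorem up [Finite O] [IsDomain k] (hc : Function.Injective (cc b m)) (L : Multiset (Edge k O))
    (D' : MvPolynomial O k) (h : ∀ κ : A ↪ K, D' ∈ cutI (L + Eo b m (Finset.univ.map κ)))
    (hne : ∀ a : A, ({Sum.inr a} : Set (O ⊕ A))ᶜ.Nonempty) :
    rename Sum.inl D' * VA k O A ∈ cutI (LA b m A L) := by
  let c : K → MvPolynomial (O ⊕ A) k := fun κ => rename Sum.inl (cc b m κ)
  have hcc : Function.Injective c := fun κ κ' h' => hc (rename_injective _ Sum.inl_injective h')
  refine removal_multi (M := Fintype.card A • ED b m A) ?_ ?_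
  · intro e he
    have he' := Multiset.mem_of_mem_nsmul he
    obtain ⟨p, hp, rfl⟩ := Multiset.mem_map.1 he'
    have hp' : p.2 ≠ p.1 := (Finset.mem_filter.1 hp).2
    rw [form_mapE, form_eK, map_sub]
    exact cc_ne b m hc (Ne.symm hp')
  · rw [Multiset.map_nsmul, Multiset.prod_nsmul, prod_ED]
    let P : MvPolynomial A (MvPolynomial (O ⊕ A) k) :=
      ∏ p ∈ (Finset.univ : Finset (A × A)).filter (fun p => p.1 ≠ p.2), (X p.1 - X p.2)
    have hP : ∀ x : A → MvPolynomial (O ⊕ A) k, eval x P =
        ∏ p ∈ (Finset.univ : Finset (A × A)).filter (fun p => p.1 ≠ p.2), (x p.1 - x p.2) := by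
      intro x
      simp only [P, map_prod, map_sub, eval_X]
    have h1 := lagr c hcc (fun a : A => X (Sum.inr a)) P
    have h2 : Ideal.span (Set.range fun a : A => NN c (X (Sum.inr a))) ≤
        cutI (Fintype.card A • ED b m A + LA b m A L) := by
      rw [Ideal.span_le]
      rintro z ⟨a, rfl⟩
      refine Ideal.subset_span ⟨{Sum.inr a}, Set.singleton_nonempty _, hne a, ?_⟩
      have h3 : Y (Fintype.card A • ED (k := k) b m A) {Sum.inr a} = 1 := by
        unfold Y
        rw [Multiset.filter_eq_nil.2, Multiset.map_zero, Multiset.prod_zero]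
        intro e he
        have he' := Multiset.mem_of_mem_nsmul he
        obtain ⟨p, hp, rfl⟩ := Multiset.mem_map.1 he'
        simp [cuts, mapE]
      have h4 : Y (L.map (mapE Sum.inl)) ({Sum.inr a} : Set (O ⊕ A)) = 1 := by
        rw [Y_mapE]
        unfold Y
        rw [Multiset.filter_eq_nil.2, Multiset.map_zero, Multiset.prod_zero, map_one]
        intro e he
        simp [cuts]
      unfold LA
      rw [Y_add, Y_add, h3, h4, one_mul, one_mul, Y_crossE]
      have h5 : (fun a : A => NN c (X (Sum.inr a))) a =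
          ∏ p ∈ ({a} : Finset A) ×ˢ (Finset.univ : Finset K),
          ((X (Sum.inr p.1) - rename Sum.inl (cc b m p.2)) : MvPolynomial (O ⊕ A) k) := by
        rw [Finset.prod_product, Finset.prod_singleton]; rfl
      rw [h5]
      apply Finset.prod_congr _ (fun _ _ => rfl)
      ext p
      simp only [Finset.mem_filter, Finset.mem_univ, true_and, Finset.mem_product,
        Finset.mem_singleton, and_true, Set.mem_singleton_iff, Sum.inr.injEq, reduceCtorEq,
        iff_false, not_not]
    have h3 := h2 h1
    have h4 : rename Sum.inl D' * ∑ κ : A → K, eval (fun a => c (κ a)) P *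
        ∏ a, (dd c (κ a) * ll c (κ a) (X (Sum.inr a))) ∈
          cutI (Fintype.card A • ED b m A + LA b m A L) := by
      rw [Finset.mul_sum]
      apply Ideal.sum_mem
      intro κ _
      by_cases hκ : Function.Injective κ
      · have := term_mem b m hc L D' ⟨κ, hκ⟩ (h ⟨κ, hκ⟩)
        rw [hP]
        exact this
      · have : eval (fun a => c (κ a)) P = 0 := by
          rw [hP]
          unfold Function.Injective at hκ
          push Not at hκ
          obtain ⟨a, a', h', hne'⟩ := hκ
          apply Finset.prod_eq_zero (i := (a, a'))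
          · simp [hne']
          · simp [h']
        rw [this, zero_mul, mul_zero]
        exact Ideal.zero_mem _
    have h5 := Ideal.add_mem _ (Ideal.mul_mem_left _ (rename Sum.inl D') h3) h4
    rw [← mul_add, sub_add_cancel] at h5
    have h6 : eval (fun a : A => (X (Sum.inr a) : MvPolynomial (O ⊕ A) k)) P = VA k O A := by
      rw [hP]; rfl
    rw [h6] at h5
    have h7 : DD (fun κ => rename Sum.inl (cc b m κ) : K → MvPolynomial (O ⊕ A) k) ^
      Fintype.card A * (rename Sum.inl D' * VA k O A) =
        rename Sum.inl D' * (DD c ^ Fintype.card A * VA k O A) := by ring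
    rw [h7]
    exact h5

end

end Vale.Agent.P291.H882
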