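import Vale.Agent.P291.H882.Refl2

/-!
# Reflection of cut ideals: the statement
-/

open MvPolynomial

open scoped Classical

set_option linter.unusedSectionVars false

namespace Vale.Agent.P291.H882

noncomputable section

section gen

variable {k : Type*} [CommRing k] {V W : Type*}

theorem cutI_le_of_dvd {L L' : Multiset (Edge k V)} (h : ∀ U, Y L' U ∣ Y L U) :
    cutI L ≤ cutI L' := by
  unfold cutI
  rw [Ideal.span_le]
  rintro z ⟨U, hU, hU', rfl⟩
  exact Ideal.mem_of_dvd _ (h U) (Y_mem hU hU')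

theorem cutI_congr {L L' : Multiset (Edge k V)} (h : ∀ U, Associated (Y L U) (Y L' U)) :
    cutI L = cutI L' :=
  le_antisymm (cutI_le_of_dvd fun U => (h U).symm.dvd) (cutI_le_of_dvd fun U => (h U).dvd)

theorem rename_mem (σ : V ≃ W) {L : Multiset (Edge k V)} {f : MvPolynomial V k}
    (h : f ∈ cutI L) : rename σ f ∈ cutI (L.map (mapE σ)) := by
  have : cutI L ≤ (cutI (L.map (mapE σ))).comap (rename σ) := by
    unfold cutI
    rw [Ideal.span_le]
    rintro z ⟨U, hU, hU', rfl⟩
    rw [SetLike.mem_coe, Ideal.mem_comap]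
    have hp : σ ⁻¹' (σ '' U) = U := Set.preimage_image_eq U σ.injective
    refine Ideal.subset_span ⟨σ '' U, hU.image _, ?_, ?_⟩
    · obtain ⟨x, hx⟩ := hU'
      exact ⟨σ x, fun ⟨y, hy, e⟩ => hx (σ.injective e ▸ hy)⟩
    · rw [Y_mapE, hp]
  exact this h

/-- reversal of an edge -/
def rev (e : Edge k V) : Edge k V := (e.2.1, e.1, - e.2.2)

theorem form_rev (e : Edge k V) : form (rev e) = - form e := by
  simp [form, rev]; ring

theorem cuts_rev (U : Set V) (e : Edge k V) : cuts U (rev e) ↔ cuts U e := by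
  unfold cuts rev; simp only; tauto

end gen

section refl

variable {k : Type*} [CommRing k] {O A A' K : Type*} [Fintype A] [Fintype A'] [Fintype K]
  (b : K → O) (m : K → k)

theorem Eo_compl (S : Finset K) (U : Set O) :
    Associated (Y (Eo b m Sᶜ) U) (Y (Eo b m S) U) := by
  unfold Eo
  rw [Y_finset, Y_finset]
  have : ∏ p ∈ (Sᶜ ×ˢ Sᶜᶜ).filter (fun p => cuts U (eK b m p)), form (eK b m p) =
      ∏ p ∈ (S ×ˢ Sᶜ).filter (fun p => cuts U (eK b m p)), form (eK b m p.swap) := by
    refine Finset.prod_bij' (fun p _ => p.swap) (fun p _ => p.swap) ?_ ?_ ?_ ?_ ?_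
    · intro p hp
      rw [Finset.mem_filter, Finset.mem_product] at hp ⊢
      rw [compl_compl] at hp
      refine ⟨⟨hp.1.2, hp.1.1⟩, ?_⟩
      have := hp.2
      unfold cuts eK at this ⊢
      simp only [Prod.fst_swap, Prod.snd_swap] at this ⊢
      tauto
    · intro p hp
      rw [Finset.mem_filter, Finset.mem_product] at hp ⊢
      rw [compl_compl]
      refine ⟨⟨hp.1.2, hp.1.1⟩, ?_⟩
      have := hp.2
      unfold cuts eK at this ⊢
      simp only [Prod.fst_swap, Prod.snd_swap] at this ⊢
      tauto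
    · intro p _; rfl
    · intro p _; rfl
    · intro p _; rfl
  rw [this]
  apply Associated.prod
  intro p _
  rw [form_eK, form_eK]
  refine ⟨-1, ?_⟩
  simp

/-- **Reflection** -/
theorem reflect [Finite O] [IsDomain k] (hc : Function.Injective (cc b m))
    (L : Multiset (Edge k O)) (D' : MvPolynomial O k)
    (hcard : Fintype.card A + Fintype.card A' = Fintype.card K)
    (hne : ∀ a : A, ({Sum.inr a} : Set (O ⊕ A))ᶜ.Nonempty)
    (h : rename Sum.inl D' * VA k O A' ∈ cutI (LA b m A' L)) :
    rename Sum.inl D' * VA k O A ∈ cutI (LA b m A L) := by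
  refine up b m hc L D' ?_ hne
  intro κ
  have h1 : (Finset.univ.map κ)ᶜ.card = Fintype.card A' := by
    rw [Finset.card_compl, Finset.card_map, Finset.card_univ]; omega
  -- an embedding of `A'` with image the complement
  let σ : A' ≃ {x // x ∈ (Finset.univ.map κ)ᶜ} := Fintype.equivOfCardEq (by
    rw [Fintype.card_coe, h1])
  let κ' : A' ↪ K := σ.toEmbedding.trans (Function.Embedding.subtype _)
  have h2 : Finset.univ.map κ' = (Finset.univ.map κ)ᶜ := by
    ext x
    constructor
    · intro hx
      obtain ⟨a, _, rfl⟩ := Finset.mem_map.1 hx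
      exact (σ a).2
    · intro hx
      refine Finset.mem_map.2 ⟨σ.symm ⟨x, hx⟩, Finset.mem_univ _, ?_⟩
      show ((σ (σ.symm ⟨x, hx⟩)) : K) = x
      rw [Equiv.apply_symm_apply]
  have h3 := down b m hc L D' h κ'
  rw [h2] at h3
  have h4 : cutI (L + Eo b m (Finset.univ.map κ)ᶜ) = cutI (L + Eo b m (Finset.univ.map κ)) := by
    apply cutI_congr
    intro U
    rw [Y_add, Y_add]
    exact (Associated.refl _).mul_mul (Eo_compl b m _ U)
  rw [h4] at h3
  exact h3

/-- too many boxes -/
theorem too_many [Finite O] [IsDomain k] (hc : Function.Injective (cc b m))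
    (L : Multiset (Edge k O)) (D' : MvPolynomial O k)
    (hcard : Fintype.card K < Fintype.card A)
    (hne : ∀ a : A, ({Sum.inr a} : Set (O ⊕ A))ᶜ.Nonempty) :
    rename Sum.inl D' * VA k O A ∈ cutI (LA b m A L) := by
  refine up b m hc L D' ?_ hne
  intro κ
  exact absurd (Fintype.card_le_of_embedding κ) (by omega)

end refl

end

end Vale.Agent.P291.H882
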