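import Vale.Agent.P291.H882.Uq

/-!
# The root lemma

If the dimension vector of a set of boxes is not a root of the quiver, then `D` lies in the cut
ideal (independent masses).
-/

open MvPolynomial

open scoped Classical

set_option linter.unusedSectionVars false

namespace Vale.Agent.P291.H882

noncomputable section

/-! ### Roots of a quiver (Kac) -/

section roots

variable {J E : Type*} [Fintype E] (src tgt : E → J)

/-- `∑` of the coordinates of the neighbours of `i` (a loop at `i` counts twice) -/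
def nb (α : J → ℤ) (i : J) : ℤ :=
  ∑ e, ((if src e = i then α (tgt e) else 0) + (if tgt e = i then α (src e) else 0))

/-- no loop at `i` -/
def LoopFree (i : J) : Prop := ∀ e, ¬ (src e = i ∧ tgt e = i)

/-- the simple reflection `s_i` -/
def sref (i : J) (α : J → ℤ) : J → ℤ := Function.update α i (nb src tgt α i - α i)

/-- connected support -/
def Conn (α : J → ℤ) : Prop := ∀ T : Set J, (∃ j, j ∈ T ∧ α j ≠ 0) → (∃ j, j ∉ T ∧ α j ≠ 0) →
  ∃ e, α (src e) ≠ 0 ∧ α (tgt e) ≠ 0 ∧ ¬ (src e ∈ T ↔ tgt e ∈ T)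

/-- the fundamental region: nonzero nonnegative vectors with connected support and
`(α, e_i) ≤ 0` for all `i` -/
def Fund (α : J → ℤ) : Prop :=
  α ≠ 0 ∧ (∀ j, 0 ≤ α j) ∧ Conn src tgt α ∧ ∀ i, 2 * α i ≤ nb src tgt α i

/-- Roots: the smallest set containing the coordinate vectors at loop free vertices and the
fundamental region and closed under negation and under the simple reflections at loop free
vertices. -/
inductive IsRoot : (J → ℤ) → Prop
  | simple (i : J) (h : LoopFree src tgt i) : IsRoot (Pi.single i 1)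
  | fund (α : J → ℤ) (h : Fund src tgt α) : IsRoot α
  | neg (α : J → ℤ) (h : IsRoot α) : IsRoot (-α)
  | sref (i : J) (α : J → ℤ) (hi : LoopFree src tgt i) (h : IsRoot α) :
      IsRoot (sref src tgt i α)

theorem nb_sref {i : J} (hi : LoopFree src tgt i) (α : J → ℤ) (x : ℤ) :
    nb src tgt (Function.update α i x) i = nb src tgt α i := by
  unfold nb
  apply Finset.sum_congr rfl
  intro e _
  have h := hi e
  by_cases h1 : src e = i
  · have h2 : tgt e ≠ i := fun h2 => h ⟨h1, h2⟩
    simp [h1, h2]
  · by_cases h2 : tgt e = i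
    · simp [h1, h2]
    · simp [h1, h2]

theorem sref_sref {i : J} (hi : LoopFree src tgt i) (α : J → ℤ) :
    H882.sref src tgt i (H882.sref src tgt i α) = α := by
  unfold H882.sref
  rw [nb_sref src tgt hi]
  simp

end roots

/-! ### Dimension vectors of boxes -/

section dim

/-- dimension vector -/
def dimv {J O : Type*} [Fintype O] (vx : O → J) (j : J) : ℤ :=
  ((Finset.univ.filter (fun o => vx o = j)).card : ℤ)

variable {J E k : Type*} [Fintype E] [CommRing k] (Q : UQ J E k)

theorem dimv_nonneg {O : Type*} [Fintype O] (vx : O → J) (j : J) : 0 ≤ dimv vx j := by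
  unfold dimv; positivity

theorem dimv_ne_zero {O : Type*} [Fintype O] (vx : O → J) (j : J) :
    dimv vx j ≠ 0 ↔ ∃ o, vx o = j := by
  unfold dimv
  rw [Nat.cast_ne_zero, Finset.card_ne_zero]
  constructor
  · rintro ⟨o, ho⟩
    exact ⟨o, (Finset.mem_filter.1 ho).2⟩
  · rintro ⟨o, ho⟩
    exact ⟨o, by simp [ho]⟩

theorem dimv_vA_self (i : J) {O : Type*} [Fintype O] (vx : O → J) (hvx : ∀ o, vx o ≠ i)
    (A : Type*) [Fintype A] : dimv (UQ.vA i vx A) i = Fintype.card A := by
  unfold dimv
  have : (Finset.univ.filter (fun o => UQ.vA i vx A o = i)) =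
      Finset.univ.map (Function.Embedding.inr : A ↪ O ⊕ A) := by
    ext x
    rcases x with o | a
    · simp only [Finset.mem_filter, Finset.mem_univ, true_and, Finset.mem_map,
        Function.Embedding.inr_apply, reduceCtorEq, exists_false, iff_false]
      exact hvx o
    · simp only [Finset.mem_filter, Finset.mem_univ, true_and, Finset.mem_map,
        Function.Embedding.inr_apply, Sum.inr.injEq, exists_eq, iff_true]
      rfl
  rw [this, Finset.card_map, Finset.card_univ]

theorem dimv_vA_ne (i : J) {O : Type*} [Fintype O] (vx : O → J)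
    (A : Type*) [Fintype A] {j : J} (hj : j ≠ i) : dimv (UQ.vA i vx A) j = dimv vx j := by
  unfold dimv
  have : (Finset.univ.filter (fun o => UQ.vA i vx A o = j)) =
      (Finset.univ.filter (fun o => vx o = j)).map (Function.Embedding.inl : O ↪ O ⊕ A) := by
    ext x
    rcases x with o | a
    · simp only [Finset.mem_filter, Finset.mem_univ, true_and, Finset.mem_map,
        Function.Embedding.inl_apply, Sum.inl.injEq, exists_eq_right]
      rfl
    · simp only [Finset.mem_filter, Finset.mem_univ, true_and, Finset.mem_map,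
        Function.Embedding.inl_apply, reduceCtorEq, and_false, exists_false, iff_false]
      exact fun h => hj h.symm
  rw [this, Finset.card_map]

theorem card_K (i : J) {O : Type*} [Fintype O] (vx : O → J) :
    (Fintype.card (Q.K1 i vx ⊕ Q.K2 i vx) : ℤ) = nb Q.src Q.tgt (dimv vx) i := by
  rw [Fintype.card_sum, Fintype.card_subtype, Fintype.card_subtype]
  unfold nb
  rw [Finset.sum_add_distrib]
  push_cast
  congr 1
  · rw [← Finset.univ_product_univ, Finset.card_filter, Finset.sum_product]
    push_cast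
    apply Finset.sum_congr rfl
    intro e _
    by_cases h : Q.src e = i
    · rw [if_pos h]
      unfold dimv
      rw [Finset.card_filter]
      push_cast
      apply Finset.sum_congr rfl
      intro o _
      simp [h, eq_comm]
    · rw [if_neg h]
      apply Finset.sum_eq_zero
      intro o _
      simp [h]
  · rw [← Finset.univ_product_univ, Finset.card_filter, Finset.sum_product]
    push_cast
    apply Finset.sum_congr rfl
    intro e _
    by_cases h : Q.tgt e = i
    · rw [if_pos h]
      unfold dimv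
      rw [Finset.card_filter]
      push_cast
      apply Finset.sum_congr rfl
      intro o _
      simp [h, eq_comm]
    · rw [if_neg h]
      apply Finset.sum_eq_zero
      intro o _
      simp [h]

/-- generic masses -/
def Gen : Prop := ∀ e e', e ≠ e' → Q.t e ≠ Q.t e' ∧ Q.t e + Q.t e' ≠ 0

theorem cc_injective [IsDomain k] (hQ : Gen Q) (i : J) {O : Type*} [Fintype O] (vx : O → J)
    (hi : LoopFree Q.src Q.tgt i) : Function.Injective (cc (Q.bK i vx) (Q.mK i vx)) := by
  -- the box and the mass are determined by `X b + C m`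
  have key : ∀ (o o' : O) (c c' : k), (X o + C c : MvPolynomial O k) = X o' + C c' →
      o = o' ∧ c = c' := by
    intro o o' c c' h
    have hc : c = c' := by
      have := congrArg (MvPolynomial.coeff 0) h
      simpa using this
    refine ⟨?_, hc⟩
    rw [hc] at h
    exact X_injective (add_right_cancel h)
  rintro (⟨⟨e, o⟩, h⟩ | ⟨⟨e, o⟩, h⟩) (⟨⟨e', o'⟩, h'⟩ | ⟨⟨e', o'⟩, h'⟩) heq
  · obtain ⟨h1, h2⟩ := key o o' (Q.t e) (Q.t e') heq
    have : e = e' := by
      by_contra hne
      exact (hQ e e' hne).1 h2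
    subst this; subst h1; rfl
  · obtain ⟨h1, h2⟩ := key o o' (Q.t e) (- Q.t e') heq
    exfalso
    have hne : e ≠ e' := by
      rintro rfl
      exact hi e ⟨h.1, h'.1⟩
    exact (hQ e e' hne).2 (by rw [h2]; ring)
  · obtain ⟨h1, h2⟩ := key o o' (- Q.t e) (Q.t e') heq
    exfalso
    have hne : e ≠ e' := by
      rintro rfl
      exact hi e ⟨h'.1, h.1⟩
    exact (hQ e e' hne).2 (by rw [← h2]; ring)
  · obtain ⟨h1, h2⟩ := key o o' (- Q.t e) (- Q.t e') heq
    have : e = e' := by
      by_contra hne
      exact (hQ e e' hne).1 (neg_injective h2)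
    subst this; subst h1; rfl

/-- disconnected support -/
theorem good_of_not_conn {O : Type*} [Fintype O] (vx : O → J)
    (h : ¬ Conn Q.src Q.tgt (dimv vx)) : Q.Good vx := by
  unfold Conn at h
  push Not at h
  obtain ⟨T, ⟨j, hj, hj'⟩, ⟨l, hl, hl'⟩, hT⟩ := h
  have h1 : Y (Q.L vx) {o | vx o ∈ T} = 1 := by
    unfold Y
    rw [Multiset.filter_eq_nil.2, Multiset.map_zero, Multiset.prod_zero]
    intro x hx
    unfold UQ.L at hx
    obtain ⟨p, hp, rfl⟩ := Multiset.mem_map.1 hx
    have hp' := (Finset.mem_filter.1 hp).2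
    unfold cuts
    rw [not_not]
    show vx p.2.2 ∈ T ↔ vx p.2.1 ∈ T
    rw [hp'.1, hp'.2]
    exact (hT p.1 ((dimv_ne_zero vx _).2 ⟨_, hp'.1⟩) ((dimv_ne_zero vx _).2 ⟨_, hp'.2⟩)).symm
  unfold UQ.Good
  have h2 : (1 : MvPolynomial O k) ∈ cutI (Q.L vx) := by
    rw [← h1]
    obtain ⟨o, ho⟩ := (dimv_ne_zero vx j).1 hj'
    obtain ⟨o', ho'⟩ := (dimv_ne_zero vx l).1 hl'
    refine Y_mem ⟨o, ?_⟩ ⟨o', ?_⟩
    · show vx o ∈ T
      rw [ho]; exact hj
    · show ¬ vx o' ∈ T
      rw [ho']; exact hl
  rw [(Ideal.eq_top_iff_one _).2 h2]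
  exact trivial

/-- **Root lemma**: if the dimension vector is not a root then `D` is in the cut ideal. -/
theorem root_lemma [IsDomain k] (hQ : Gen Q) {O : Type*} [Fintype O] [Nonempty O] (vx : O → J)
    (h : ¬ IsRoot Q.src Q.tgt (dimv vx)) : Q.Good vx := by
  obtain ⟨n, hn⟩ : ∃ n, Fintype.card O = n := ⟨_, rfl⟩
  induction n using Nat.strong_induction_on generalizing O with
  | _ n ih =>
  by_cases hconn : Conn Q.src Q.tgt (dimv vx)
  swap
  · exact good_of_not_conn Q vx hconn
  have hne0 : dimv vx ≠ 0 := by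
    obtain ⟨o⟩ := ‹Nonempty O›
    intro h0
    exact (dimv_ne_zero vx (vx o)).2 ⟨o, rfl⟩ (congrFun h0 _)
  obtain ⟨i, hi⟩ : ∃ i, nb Q.src Q.tgt (dimv vx) i < 2 * dimv vx i := by
    by_contra hcon
    push Not at hcon
    exact h (IsRoot.fund _ ⟨hne0, dimv_nonneg vx, hconn, hcon⟩)
  have hlf : LoopFree Q.src Q.tgt i := by
    intro e he
    have : 2 * dimv vx i ≤ nb Q.src Q.tgt (dimv vx) i := by
      unfold nb
      have h1 : (if Q.src e = i then dimv vx (Q.tgt e) else 0) +
          (if Q.tgt e = i then dimv vx (Q.src e) else 0) = 2 * dimv vx i := by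
        rw [if_pos he.1, if_pos he.2, he.1, he.2]; ring
      rw [← h1]
      refine Finset.single_le_sum (f := fun e => (if Q.src e = i then dimv vx (Q.tgt e) else 0) +
          (if Q.tgt e = i then dimv vx (Q.src e) else 0)) (fun e _ => ?_) (Finset.mem_univ e)
      have h2 := dimv_nonneg vx
      show 0 ≤ (if Q.src e = i then dimv vx (Q.tgt e) else 0) +
          (if Q.tgt e = i then dimv vx (Q.src e) else 0)
      refine add_nonneg ?_ ?_
      · split_ifs
        · exact h2 _
        · exact le_refl _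
      · split_ifs
        · exact h2 _
        · exact le_refl _
    omega
  -- split the boxes
  let O₀ := {o : O // ¬ vx o = i}
  let A := {o : O // vx o = i}
  let v₀ : O₀ → J := fun o => vx o.1
  have hv₀ : ∀ o, v₀ o ≠ i := fun o => o.2
  let σ : O₀ ⊕ A ≃ O := (Equiv.sumComm _ _).trans (Equiv.sumCompl (fun o : O => vx o = i))
  have hσ : ∀ x, vx (σ x) = UQ.vA i v₀ A x := by
    rintro (o | a)
    · rfl
    · exact a.2
  have hdim : dimv (UQ.vA i v₀ A) = dimv vx := by
    funext j
    unfold dimv
    congr 1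
    refine Finset.card_bij (fun x _ => σ x) ?_ ?_ ?_
    · intro x hx
      rw [Finset.mem_filter] at hx ⊢
      exact ⟨Finset.mem_univ _, by rw [hσ]; exact hx.2⟩
    · intro x _ y _ hxy
      exact σ.injective hxy
    · intro o ho
      refine ⟨σ.symm o, ?_, by simp⟩
      rw [Finset.mem_filter] at ho ⊢
      exact ⟨Finset.mem_univ _, by rw [← hσ, Equiv.apply_symm_apply]; exact ho.2⟩
  have hcardA : dimv vx i = Fintype.card A := by
    rw [← hdim, dimv_vA_self i v₀ hv₀]
  have hnb : nb Q.src Q.tgt (dimv vx) i =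
      (Fintype.card (Q.K1 i v₀ ⊕ Q.K2 i v₀) : ℤ) := by
    rw [card_K Q i v₀]
    unfold nb
    apply Finset.sum_congr rfl
    intro e _
    rw [← hdim]
    by_cases h1 : Q.src e = i
    · have h2 : Q.tgt e ≠ i := fun h2 => hlf e ⟨h1, h2⟩
      rw [if_pos h1, if_neg h2, if_pos h1, if_neg h2, dimv_vA_ne i v₀ A h2]
    · by_cases h2 : Q.tgt e = i
      · rw [if_neg h1, if_pos h2, if_neg h1, if_pos h2, dimv_vA_ne i v₀ A h1]
      · rw [if_neg h1, if_neg h2, if_neg h1, if_neg h2]
  have hcc := cc_injective Q hQ i v₀ hlf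
  -- it is enough to treat `O₀ ⊕ A`
  suffices hgood : Q.Good (UQ.vA i v₀ A) from hgood.congr σ hσ
  unfold UQ.Good
  rw [UQ.Dx_vA i v₀ hv₀ A, cutI_congr (fun U => UQ.Y_vA Q i v₀ hlf A U)]
  -- nonempty complement of a box
  have hcompl : (∀ a : A, ({Sum.inr a} : Set (O₀ ⊕ A))ᶜ.Nonempty) := by
    intro a
    by_contra hcon
    rw [Set.not_nonempty_iff_eq_empty, Set.compl_empty_iff] at hcon
    have hall : ∀ x : O₀ ⊕ A, x = Sum.inr a := fun x => by
      have : x ∈ (Set.univ : Set (O₀ ⊕ A)) := trivial
      rw [← hcon] at this; exact this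
    apply h
    have : dimv vx = Pi.single i 1 := by
      rw [← hdim]
      funext j
      by_cases hj : j = i
      · subst hj
        rw [dimv_vA_self j v₀ hv₀, Pi.single_eq_same]
        have : Fintype.card A = 1 := Fintype.card_eq_one_iff.2
          ⟨a, fun a' => Sum.inr_injective (hall (Sum.inr a'))⟩
        rw [this]; rfl
      · rw [Pi.single_eq_of_ne hj]
        by_contra hcon2
        obtain ⟨x, hx⟩ := (dimv_ne_zero _ _).1 hcon2
        rw [hall x] at hx
        exact hj hx.symm
    rw [this]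
    exact IsRoot.simple i hlf
  by_cases hbig : Fintype.card (Q.K1 i v₀ ⊕ Q.K2 i v₀) < Fintype.card A
  · exact too_many _ _ hcc _ _ hbig hcompl
  · rw [not_lt] at hbig
    -- reflect
    let A' := Fin (Fintype.card (Q.K1 i v₀ ⊕ Q.K2 i v₀) - Fintype.card A)
    have hA' : Fintype.card A' = Fintype.card (Q.K1 i v₀ ⊕ Q.K2 i v₀) - Fintype.card A :=
      Fintype.card_fin _
    have hcard : Fintype.card A + Fintype.card A' = Fintype.card (Q.K1 i v₀ ⊕ Q.K2 i v₀) := by
      rw [hA']; omega
    refine reflect (A' := A') _ _ hcc _ _ hcard hcompl ?_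
    rw [← UQ.Dx_vA i v₀ hv₀ A', ← cutI_congr (fun U => UQ.Y_vA Q i v₀ hlf A' U)]
    have hlt : Fintype.card A' < Fintype.card A := by
      rw [hcardA, hnb] at hi
      omega
    have hcardO : Fintype.card (O₀ ⊕ A) = Fintype.card O := Fintype.card_congr σ
    have hdim' : dimv (UQ.vA i v₀ A') = sref Q.src Q.tgt i (dimv vx) := by
      funext j
      unfold sref
      by_cases hj : j = i
      · subst hj
        rw [dimv_vA_self j v₀ hv₀, Function.update_self, hcardA, hnb]
        have h3 : (Fintype.card A : ℤ) + (Fintype.card A' : ℤ) =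
            (Fintype.card (Q.K1 j v₀ ⊕ Q.K2 j v₀) : ℤ) := by exact_mod_cast hcard
        linarith
      · rw [Function.update_of_ne hj, dimv_vA_ne i v₀ A' hj, ← hdim, dimv_vA_ne i v₀ A hj]
    have hO' : Nonempty (O₀ ⊕ A') := by
      by_contra hemp
      rw [not_nonempty_iff] at hemp
      have hO₀ : IsEmpty O₀ := ⟨fun o => hemp.false (Sum.inl o)⟩
      have : Fintype.card (Q.K1 i v₀ ⊕ Q.K2 i v₀) = 0 := by
        rw [Fintype.card_eq_zero_iff]
        exact ⟨fun x => hO₀.false (Q.bK i v₀ x)⟩
      omega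
    refine ih (Fintype.card (O₀ ⊕ A')) ?_ (UQ.vA i v₀ A') ?_ rfl
    · have h3 : Fintype.card (O₀ ⊕ A') = Fintype.card O₀ + Fintype.card A' := Fintype.card_sum
      have h4 : Fintype.card (O₀ ⊕ A) = Fintype.card O₀ + Fintype.card A := Fintype.card_sum
      omega
    · rw [hdim']
      intro hroot
      apply h
      have := IsRoot.sref i _ hlf hroot
      rwa [sref_sref Q.src Q.tgt hlf] at this

end dim

end

end Vale.Agent.P291.H882
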