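import Vale.Agent.P291.H882.Refl3

/-!
# Cut ideals of quivers
-/

open MvPolynomial

open scoped Classical

set_option linter.unusedSectionVars false

namespace Vale.Agent.P291.H882

/-- A quiver with masses. -/
structure UQ (J E k : Type*) where
  /-- source -/
  src : E → J
  /-- target -/
  tgt : E → J
  /-- mass -/
  t : E → k

noncomputable section

/-- `D = ∏ (x_r - x_s)` over ordered pairs of distinct boxes at the same vertex -/
def Dx (k : Type*) [CommRing k] {J O : Type*} [Fintype O] (vx : O → J) : MvPolynomial O k :=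
  ∏ p ∈ (Finset.univ : Finset (O × O)).filter (fun p => p.1 ≠ p.2 ∧ vx p.1 = vx p.2),
    (X p.1 - X p.2)

namespace UQ

variable {J E k : Type*} [Fintype E] [CommRing k] (Q : UQ J E k)

/-- the edges: all weights `x_s - x_r + t_a`, `r` at the source and `s` at the target of `a` -/
def L {O : Type*} [Fintype O] (vx : O → J) : Multiset (Edge k O) :=
  ((Finset.univ : Finset (E × O × O)).filter
    (fun p => vx p.2.1 = Q.src p.1 ∧ vx p.2.2 = Q.tgt p.1)).val.map
      (fun p => (p.2.2, p.2.1, Q.t p.1))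

/-- `D` is in the cut ideal -/
def Good {O : Type*} [Fintype O] (vx : O → J) : Prop := Dx k vx ∈ cutI (Q.L vx)

section transfer

variable {O O' : Type*} [Fintype O] [Fintype O']

theorem L_map (σ : O ≃ O') (vx : O → J) (vx' : O' → J) (h : ∀ o, vx' (σ o) = vx o) :
    Q.L vx' = (Q.L vx).map (mapE σ) := by
  unfold L
  rw [Multiset.map_map]
  let τ : E × O × O ≃ E × O' × O' := (Equiv.refl E).prodCongr (σ.prodCongr σ)
  have : (Finset.univ : Finset (E × O' × O')).filter
      (fun p => vx' p.2.1 = Q.src p.1 ∧ vx' p.2.2 = Q.tgt p.1) =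
      ((Finset.univ : Finset (E × O × O)).filter
        (fun p => vx p.2.1 = Q.src p.1 ∧ vx p.2.2 = Q.tgt p.1)).map τ.toEmbedding := by
    ext ⟨e, r, s⟩
    simp only [Finset.mem_filter, Finset.mem_univ, true_and, Finset.mem_map_equiv]
    have h1 : ∀ r, vx (σ.symm r) = vx' r := by
      intro r; rw [← h, Equiv.apply_symm_apply]
    show _ ↔ (vx (σ.symm r) = Q.src e ∧ vx (σ.symm s) = Q.tgt e)
    rw [h1, h1]
  rw [this, Finset.map_val, Multiset.map_map]
  rfl

theorem Dx_map (σ : O ≃ O') (vx : O → J) (vx' : O' → J) (h : ∀ o, vx' (σ o) = vx o) :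
    Dx k vx' = rename σ (Dx k vx) := by
  unfold Dx
  rw [map_prod]
  symm
  refine Finset.prod_equiv (σ.prodCongr σ) ?_ ?_
  · rintro ⟨r, s⟩
    simp only [Finset.mem_filter, Finset.mem_univ, true_and, Equiv.prodCongr_apply, Prod.map_apply]
    rw [h, h, σ.injective.ne_iff]
  · rintro ⟨r, s⟩ _
    simp

theorem Good.congr {Q : UQ J E k} {vx : O → J} {vx' : O' → J} (h0 : Q.Good vx) (σ : O ≃ O')
    (h : ∀ o, vx' (σ o) = vx o) : Q.Good vx' := by
  unfold Good at h0 ⊢
  rw [Q.L_map σ vx vx' h, Dx_map σ vx vx' h]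
  exact rename_mem σ h0

end transfer

theorem Y_L {O : Type*} [Fintype O] (vx : O → J) (U : Set O) : Y (Q.L vx) U =
    ∏ e : E, ∏ r : O, ∏ s : O, if (vx r = Q.src e ∧ vx s = Q.tgt e) ∧ cuts U (s, r, Q.t e) then
      form (s, r, Q.t e) else 1 := by
  unfold L
  rw [Y_finset, Finset.filter_filter, Finset.prod_filter, ← Finset.univ_product_univ,
    Finset.prod_product]
  apply Finset.prod_congr rfl
  intro e _
  rw [← Finset.univ_product_univ, Finset.prod_product]

section split

variable (i : J) {O : Type*} [Fintype O] (vx : O → J)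

/-- points coming from arrows starting at `i` -/
abbrev K1 := {p : E × O // Q.src p.1 = i ∧ Q.tgt p.1 = vx p.2}

/-- points coming from arrows ending at `i` -/
abbrev K2 := {p : E × O // Q.tgt p.1 = i ∧ Q.src p.1 = vx p.2}

/-- the box of a point -/
def bK : Q.K1 i vx ⊕ Q.K2 i vx → O := Sum.elim (fun p => p.1.2) (fun p => p.1.2)

/-- the mass of a point -/
def mK : Q.K1 i vx ⊕ Q.K2 i vx → k := Sum.elim (fun p => Q.t p.1.1) (fun p => - Q.t p.1.1)

/-- the vertex map on `O ⊕ A` -/
def vA (A : Type*) : O ⊕ A → J := Sum.elim vx (fun _ => i)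

theorem Dx_vA (hvx : ∀ o, vx o ≠ i) (A : Type*) [Fintype A] :
    Dx k (vA i vx A) = rename Sum.inl (Dx k vx) * VA k O A := by
  have h1 : Dx k (vA i vx A) = ∏ r : O ⊕ A, ∏ s : O ⊕ A,
      if r ≠ s ∧ vA i vx A r = vA i vx A s then (X r - X s) else 1 := by
    unfold Dx
    rw [Finset.prod_filter, ← Finset.univ_product_univ, Finset.prod_product]
    apply Finset.prod_congr rfl
    intro r _
    apply Finset.prod_congr rfl
    intro s _
    by_cases h2 : r ≠ s ∧ vA i vx A r = vA i vx A s
    · rw [if_pos h2]; exact (if_pos h2).symm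
    · rw [if_neg h2]; exact (if_neg h2).symm
  rw [h1, Fintype.prod_sum_type]
  congr 1
  · unfold Dx
    rw [Finset.prod_filter, map_prod, ← Finset.univ_product_univ, Finset.prod_product]
    apply Finset.prod_congr rfl
    intro r _
    rw [Fintype.prod_sum_type]
    have : ∏ s : A, (if (Sum.inl r : O ⊕ A) ≠ Sum.inr s ∧ vA i vx A (Sum.inl r) =
        vA i vx A (Sum.inr s) then (X (Sum.inl r) - X (Sum.inr s) : MvPolynomial (O ⊕ A) k)
          else 1) = 1 := by
      apply Finset.prod_eq_one
      intro s _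
      rw [if_neg]
      rintro ⟨_, h⟩
      exact hvx r h
    rw [this, mul_one]
    apply Finset.prod_congr rfl
    intro s _
    have h2 : ((Sum.inl r : O ⊕ A) ≠ Sum.inl s ∧ vA i vx A (Sum.inl r) = vA i vx A (Sum.inl s)) ↔
        (r ≠ s ∧ vx r = vx s) := by
      rw [Sum.inl_injective.ne_iff]; rfl
    by_cases h3 : r ≠ s ∧ vx r = vx s
    · rw [if_pos (h2.2 h3), if_pos h3]; simp
    · rw [if_neg (fun h => h3 (h2.1 h)), if_neg h3]; simp
  · unfold VA
    rw [Finset.prod_filter, ← Finset.univ_product_univ, Finset.prod_product]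
    apply Finset.prod_congr rfl
    intro r _
    rw [Fintype.prod_sum_type]
    have : ∏ s : O, (if (Sum.inr r : O ⊕ A) ≠ Sum.inl s ∧ vA i vx A (Sum.inr r) =
        vA i vx A (Sum.inl s) then (X (Sum.inr r) - X (Sum.inl s) : MvPolynomial (O ⊕ A) k)
          else 1) = 1 := by
      apply Finset.prod_eq_one
      intro s _
      rw [if_neg]
      rintro ⟨_, h⟩
      exact hvx s h.symm
    rw [this, one_mul]
    apply Finset.prod_congr rfl
    intro s _
    have h2 : ((Sum.inr r : O ⊕ A) ≠ Sum.inr s ∧ vA i vx A (Sum.inr r) = vA i vx A (Sum.inr s)) ↔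
        r ≠ s := by
      rw [Sum.inr_injective.ne_iff]
      exact ⟨fun h => h.1, fun h => ⟨h, rfl⟩⟩
    by_cases h3 : r ≠ s
    · rw [if_pos (h2.2 h3), if_pos h3]
    · rw [if_neg (fun h => h3 (h2.1 h)), if_neg h3]

theorem prod_sub {α M : Type*} [Fintype α] [CommMonoid M] (p : α → Prop) [Fintype {x // p x}]
    [DecidablePred p] (f : α → M) :
    ∏ x : {x // p x}, f x = ∏ x, if p x then f x else 1 := by
  rw [← Finset.prod_filter]
  exact (Finset.prod_subtype (Finset.univ.filter p) (by simp) f).symm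

theorem Y_vA (hi : ∀ e, ¬ (Q.src e = i ∧ Q.tgt e = i)) (A : Type*)
    [Fintype A] (U : Set (O ⊕ A)) :
    Associated (Y (Q.L (vA i vx A)) U) (Y (LA (Q.bK i vx) (Q.mK i vx) A (Q.L vx)) U) := by
  -- split the left hand side
  have h1 : Y (Q.L (vA i vx A)) U = (∏ e : E, ∏ r : O, ∏ s : O,
      if (vx r = Q.src e ∧ vx s = Q.tgt e) ∧
        cuts U ((Sum.inl s, Sum.inl r, Q.t e) : Edge k (O ⊕ A)) then
          form (Sum.inl s, Sum.inl r, Q.t e) else 1) *
      ((∏ e : E, ∏ r : A, ∏ s : O,
      if (i = Q.src e ∧ vx s = Q.tgt e) ∧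
        cuts U ((Sum.inl s, Sum.inr r, Q.t e) : Edge k (O ⊕ A)) then
          form (Sum.inl s, Sum.inr r, Q.t e) else 1) *
      (∏ e : E, ∏ r : O, ∏ s : A,
      if (vx r = Q.src e ∧ i = Q.tgt e) ∧
        cuts U ((Sum.inr s, Sum.inl r, Q.t e) : Edge k (O ⊕ A)) then
          form (Sum.inr s, Sum.inl r, Q.t e) else 1)) := by
    rw [Y_L, ← Finset.prod_mul_distrib, ← Finset.prod_mul_distrib]
    apply Finset.prod_congr rfl
    intro e _
    rw [Fintype.prod_sum_type]
    have h2 : ∀ r : O, ∏ s : O ⊕ A, (if (vA i vx A (Sum.inl r) = Q.src e ∧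
        vA i vx A s = Q.tgt e) ∧ cuts U (s, Sum.inl r, Q.t e) then
          form (s, Sum.inl r, Q.t e) else 1) =
        (∏ s : O, if (vx r = Q.src e ∧ vx s = Q.tgt e) ∧
          cuts U ((Sum.inl s, Sum.inl r, Q.t e) : Edge k (O ⊕ A)) then
            form (Sum.inl s, Sum.inl r, Q.t e) else 1) *
        (∏ s : A, if (vx r = Q.src e ∧ i = Q.tgt e) ∧
          cuts U ((Sum.inr s, Sum.inl r, Q.t e) : Edge k (O ⊕ A)) then
            form (Sum.inr s, Sum.inl r, Q.t e) else 1) := by
      intro r
      rw [Fintype.prod_sum_type]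
      rfl
    have h3 : ∀ r : A, ∏ s : O ⊕ A, (if (vA i vx A (Sum.inr r) = Q.src e ∧
        vA i vx A s = Q.tgt e) ∧ cuts U (s, Sum.inr r, Q.t e) then
          form (s, Sum.inr r, Q.t e) else 1) =
        (∏ s : O, if (i = Q.src e ∧ vx s = Q.tgt e) ∧
          cuts U ((Sum.inl s, Sum.inr r, Q.t e) : Edge k (O ⊕ A)) then
            form (Sum.inl s, Sum.inr r, Q.t e) else 1) := by
      intro r
      rw [Fintype.prod_sum_type]
      have : ∏ s : A, (if (vA i vx A (Sum.inr r) = Q.src e ∧
        vA i vx A (Sum.inr s) = Q.tgt e) ∧ cuts U (Sum.inr s, Sum.inr r, Q.t e) then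
          form (Sum.inr s, Sum.inr r, Q.t e) else 1 : MvPolynomial (O ⊕ A) k) = 1 := by
        apply Finset.prod_eq_one
        intro s _
        rw [if_neg]
        rintro ⟨⟨h4, h5⟩, _⟩
        exact hi e ⟨h4.symm, h5.symm⟩
      rw [this, mul_one]
      rfl
    rw [Finset.prod_congr rfl (fun r _ => h2 r), Finset.prod_congr rfl (fun r _ => h3 r),
      Finset.prod_mul_distrib]
    ring
  have h2 : Y (LA (Q.bK i vx) (Q.mK i vx) A (Q.L vx)) U = (∏ e : E, ∏ r : O, ∏ s : O,
      if (vx r = Q.src e ∧ vx s = Q.tgt e) ∧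
        cuts U ((Sum.inl s, Sum.inl r, Q.t e) : Edge k (O ⊕ A)) then
          form (Sum.inl s, Sum.inl r, Q.t e) else 1) *
      ((∏ e : E, ∏ r : A, ∏ s : O,
      if (i = Q.src e ∧ vx s = Q.tgt e) ∧
        cuts U ((Sum.inl s, Sum.inr r, Q.t e) : Edge k (O ⊕ A)) then
          - form (Sum.inl s, Sum.inr r, Q.t e) else 1) *
      (∏ e : E, ∏ r : O, ∏ s : A,
      if (vx r = Q.src e ∧ i = Q.tgt e) ∧
        cuts U ((Sum.inr s, Sum.inl r, Q.t e) : Edge k (O ⊕ A)) then
          form (Sum.inr s, Sum.inl r, Q.t e) else 1)) := by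
    unfold LA
    rw [Y_add, Y_mapE, Y_L, map_prod]
    congr 1
    · apply Finset.prod_congr rfl
      intro e _
      rw [map_prod]
      apply Finset.prod_congr rfl
      intro r _
      rw [map_prod]
      apply Finset.prod_congr rfl
      intro s _
      by_cases h3 : (vx r = Q.src e ∧ vx s = Q.tgt e) ∧
        cuts (Sum.inl ⁻¹' U) ((s, r, Q.t e) : Edge k O)
      · rw [if_pos h3, ← form_mapE]; exact (if_pos h3).symm
      · rw [if_neg h3, map_one]; exact (if_neg h3).symm
    · rw [Y_crossE, Finset.prod_filter, ← Finset.univ_product_univ, Finset.prod_product]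
      have h3 : ∀ a : A, ∏ κ : Q.K1 i vx ⊕ Q.K2 i vx,
          (if ¬ (Sum.inr a ∈ U ↔ Sum.inl (Q.bK i vx κ) ∈ U) then
            (X (Sum.inr a) - rename Sum.inl (cc (Q.bK i vx) (Q.mK i vx) κ) :
              MvPolynomial (O ⊕ A) k) else 1) =
          (∏ e : E, ∏ s : O, if (i = Q.src e ∧ vx s = Q.tgt e) ∧
            cuts U ((Sum.inl s, Sum.inr a, Q.t e) : Edge k (O ⊕ A)) then
              - form (Sum.inl s, Sum.inr a, Q.t e) else 1) *
          (∏ e : E, ∏ r : O, if (vx r = Q.src e ∧ i = Q.tgt e) ∧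
            cuts U ((Sum.inr a, Sum.inl r, Q.t e) : Edge k (O ⊕ A)) then
              form (Sum.inr a, Sum.inl r, Q.t e) else 1) := by
        intro a
        rw [Fintype.prod_sum_type]
        congr 1
        · have h4 := prod_sub (fun p : E × O => Q.src p.1 = i ∧ Q.tgt p.1 = vx p.2)
            (fun p => if ¬ ((Sum.inr a : O ⊕ A) ∈ U ↔ (Sum.inl p.2 : O ⊕ A) ∈ U) then
              (X (Sum.inr a) - rename Sum.inl (X p.2 + C (Q.t p.1)) :
                MvPolynomial (O ⊕ A) k) else 1)
          refine Eq.trans h4 ?_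
          rw [← Finset.univ_product_univ, Finset.prod_product]
          apply Finset.prod_congr rfl
          intro e _
          apply Finset.prod_congr rfl
          intro s _
          by_cases h5 : i = Q.src e ∧ vx s = Q.tgt e
          · rw [if_pos ⟨h5.1.symm, h5.2.symm⟩]
            by_cases h6 : cuts U ((Sum.inl s, Sum.inr a, Q.t e) : Edge k (O ⊕ A))
            · rw [if_pos, if_pos ⟨h5, h6⟩]
              · simp [form]; ring
              · intro h7; exact h6 h7.symm
            · rw [if_neg, if_neg (fun h => h6 h.2)]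
              intro h7; exact h6 (fun h8 => h7 h8.symm)
          · rw [if_neg (fun h => h5 ⟨h.1.symm, h.2.symm⟩), if_neg (fun h => h5 h.1)]
        · have h4 := prod_sub (fun p : E × O => Q.tgt p.1 = i ∧ Q.src p.1 = vx p.2)
            (fun p => if ¬ ((Sum.inr a : O ⊕ A) ∈ U ↔ (Sum.inl p.2 : O ⊕ A) ∈ U) then
              (X (Sum.inr a) - rename Sum.inl (X p.2 + C (- Q.t p.1)) :
                MvPolynomial (O ⊕ A) k) else 1)
          refine Eq.trans h4 ?_
          rw [← Finset.univ_product_univ, Finset.prod_product]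
          apply Finset.prod_congr rfl
          intro e _
          apply Finset.prod_congr rfl
          intro r _
          by_cases h5 : vx r = Q.src e ∧ i = Q.tgt e
          · rw [if_pos ⟨h5.2.symm, h5.1.symm⟩]
            by_cases h6 : cuts U ((Sum.inr a, Sum.inl r, Q.t e) : Edge k (O ⊕ A))
            · rw [if_pos, if_pos ⟨h5, h6⟩]
              · simp [form]; ring
              · exact h6
            · rw [if_neg, if_neg (fun h => h6 h.2)]
              exact h6
          · rw [if_neg (fun h => h5 ⟨h.2.symm, h.1.symm⟩), if_neg (fun h => h5 h.1)]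
      rw [Finset.prod_congr rfl (fun a _ => h3 a), Finset.prod_mul_distrib]
      congr 1
      · rw [Finset.prod_comm]
      · rw [Finset.prod_comm]
        apply Finset.prod_congr rfl
        intro e _
        rw [Finset.prod_comm]
  rw [h1, h2]
  refine (Associated.refl _).mul_mul (Associated.mul_mul ?_ (Associated.refl _))
  apply Associated.prod
  intro e _
  apply Associated.prod
  intro r _
  apply Associated.prod
  intro s _
  split_ifs
  · exact ⟨-1, by simp⟩
  · exact Associated.refl _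

end split

end UQ

end

end Vale.Agent.P291.H882
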